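import Mathlib

set_option linter.unusedVariables false
set_option linter.unusedSectionVars false

open Finset

namespace Vale.Agent.P249

variable {ι : Type*} [DecidableEq ι] [Fintype ι]

theorem exists_nn (f : ι → ℝ) (k : ℕ) (hk : k ≤ Fintype.card ι) :
    ∃ s : Finset ι, s.card = k ∧ ∀ x ∈ s, ∀ y ∉ s, f x ≤ f y := by
  induction k with
  | zero => exact ⟨∅, rfl, by simp⟩
  | succ k ih =>
    obtain ⟨s, hs, h⟩ := ih (by omega)
    have hne : (univ \ s).Nonempty := by
      rw [← Finset.card_pos, Finset.card_sdiff_of_subset (subset_univ _), card_univ]; omega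
    obtain ⟨z, hz, hmin⟩ := Finset.exists_min_image _ f hne
    have hzs : z ∉ s := (mem_sdiff.1 hz).2
    refine ⟨insert z s, by rw [card_insert_of_notMem hzs, hs], ?_⟩
    intro x hx y hy
    rw [mem_insert, not_or] at hy
    rcases mem_insert.1 hx with rfl | hx
    · exact hmin y (mem_sdiff.2 ⟨mem_univ _, hy.2⟩)
    · exact h x hx y hy.2

theorem nn_radius (f : ι → ℝ) (s : Finset ι) (hs : ∀ x ∈ s, ∀ y ∉ s, f x ≤ f y) (ρ : ℝ)
    (hc : s.card ≤ (univ.filter fun x => f x ≤ ρ).card) : ∀ x ∈ s, f x ≤ ρ := by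
  intro x hx
  by_contra hlt
  push Not at hlt
  have h1 : (univ.filter fun y => f y ≤ ρ) ⊆ s.erase x := by
    intro y hy
    rw [mem_filter] at hy
    rw [mem_erase]
    constructor
    · rintro rfl; linarith [hy.2]
    · by_contra hys
      have := hs x hx y hys
      linarith [hy.2]
  have h2 := card_le_card h1
  rw [card_erase_of_mem hx] at h2
  have := card_pos.2 ⟨x, hx⟩
  omega

theorem nn_contains (f : ι → ℝ) (s : Finset ι) (hs : ∀ x ∈ s, ∀ y ∉ s, f x ≤ f y) (ρ : ℝ)
    (hc : (univ.filter fun x => f x ≤ ρ).card ≤ s.card) : (univ.filter fun x => f x ≤ ρ) ⊆ s := by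
  intro y hy
  by_contra hys
  have h1 : insert y s ⊆ univ.filter fun x => f x ≤ ρ := by
    intro x hx
    rcases mem_insert.1 hx with rfl | hx
    · exact hy
    · rw [mem_filter]
      exact ⟨mem_univ _, (hs x hx y hys).trans (mem_filter.1 hy).2⟩
  have h2 := card_le_card h1
  rw [card_insert_of_notMem hys] at h2
  omega

theorem holder_step (p : ℝ) (hp : 1 ≤ p) (π : ι → ℝ) (h0 : ∀ a, 0 ≤ π a) (h1 : ∑ a, π a = 1)
    (M : ℝ) (hM : ∀ a, π a ≤ M) (NN : ι → Finset ι) (k : ℕ) (hk : 0 < k) (hNN : ∀ a, (NN a).card = k)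
    (r : ι → ι → ℝ) (hr : ∀ a b, 0 ≤ r a b) (y : ι → ι → ℝ) (ρ : ℝ) (hρ : 0 ≤ ρ)
    (hy : ∀ a, π a ≠ 0 → ∀ b ∈ NN a, y a b ≤ ρ * r a b) :
    ∑ a, π a * ((∑ b ∈ NN a, y a b) / k) ≤ ρ * (M * ∑ a, (∑ b ∈ NN a, r a b ^ p) / k) ^ (1 / p) := by
  have hkr : (0:ℝ) < k := by exact_mod_cast hk
  have e1 : ∑ a, π a * ((∑ b ∈ NN a, y a b) / k) ≤ ρ * ∑ a, ∑ b ∈ NN a, (π a / k) * r a b := by
    rw [Finset.mul_sum]
    apply Finset.sum_le_sum
    intro a _
    by_cases ha : π a = 0
    · rw [ha]; simp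
    · have h2 : ∑ b ∈ NN a, y a b ≤ ρ * ∑ b ∈ NN a, r a b := by
        rw [Finset.mul_sum]; exact Finset.sum_le_sum fun b hb => hy a ha b hb
      have h3 : π a * ((∑ b ∈ NN a, y a b) / k) ≤ π a * ((ρ * ∑ b ∈ NN a, r a b) / k) :=
        mul_le_mul_of_nonneg_left (div_le_div_of_nonneg_right h2 hkr.le) (h0 a)
      refine h3.trans (le_of_eq ?_)
      rw [← Finset.mul_sum]
      ring
  have e2 : ∑ a, ∑ b ∈ NN a, (π a / k) * r a b ≤ (∑ a, ∑ b ∈ NN a, (π a / k) * r a b ^ p) ^ (1 / p) := by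
    have hw : ∑ z ∈ (univ : Finset ι).sigma NN, (π z.1 / k) = 1 := by
      rw [Finset.sum_sigma]
      have : ∀ a ∈ (univ : Finset ι), ∑ b ∈ NN a, (π a / (k:ℝ)) = π a := by
        intro a _
        rw [Finset.sum_const, hNN a, nsmul_eq_mul]
        field_simp
      rw [Finset.sum_congr rfl this, h1]
    have := Real.arith_mean_le_rpow_mean ((univ : Finset ι).sigma NN) (fun z => π z.1 / k) (fun z => r z.1 z.2)
      (fun z _ => div_nonneg (h0 _) hkr.le) hw (fun z _ => hr _ _) hp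
    rw [Finset.sum_sigma, Finset.sum_sigma] at this
    exact this
  have e3 : ∑ a, ∑ b ∈ NN a, (π a / k) * r a b ^ p ≤ M * ∑ a, (∑ b ∈ NN a, r a b ^ p) / k := by
    rw [Finset.mul_sum]
    apply Finset.sum_le_sum
    intro a _
    rw [← Finset.mul_sum, div_mul_eq_mul_div, mul_div_assoc]
    apply mul_le_mul_of_nonneg_right (hM a)
    exact div_nonneg (Finset.sum_nonneg fun b _ => Real.rpow_nonneg (hr _ _) _) hkr.le
  have e4 : (∑ a, ∑ b ∈ NN a, (π a / k) * r a b ^ p) ^ (1 / p) ≤ (M * ∑ a, (∑ b ∈ NN a, r a b ^ p) / k) ^ (1 / p) := by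
    apply Real.rpow_le_rpow _ e3 (by positivity)
    exact Finset.sum_nonneg fun a _ => Finset.sum_nonneg fun b _ => mul_nonneg (div_nonneg (h0 _) hkr.le) (Real.rpow_nonneg (hr _ _) _)
  exact e1.trans (mul_le_mul_of_nonneg_left (e2.trans e4) hρ)

/-- law of the chain after `i` steps -/
noncomputable def law (NN : ℕ → ι → Finset ι) (x : ι) : ℕ → ι → ℝ
  | 0 => fun a => if a = x then 1 else 0
  | i + 1 => fun b => ∑ a, law NN x i a * (if b ∈ NN (i + 1) a then 1 / ((NN (i + 1) a).card : ℝ) else 0)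

theorem law_avg (NN : ℕ → ι → Finset ι) (x : ι) (i : ℕ) (h : ι → ℝ) :
    ∑ b, law NN x (i + 1) b * h b = ∑ a, law NN x i a * ((∑ b ∈ NN (i + 1) a, h b) / (NN (i + 1) a).card) := by
  simp only [law]
  have e1 : ∀ b ∈ (univ : Finset ι), (∑ a, law NN x i a * (if b ∈ NN (i + 1) a then 1 / ((NN (i + 1) a).card : ℝ) else 0)) * h b
      = ∑ a, law NN x i a * ((if b ∈ NN (i + 1) a then 1 / ((NN (i + 1) a).card : ℝ) else 0) * h b) := by
    intro b _
    rw [Finset.sum_mul]
    exact Finset.sum_congr rfl fun a _ => by ring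
  rw [Finset.sum_congr rfl e1, Finset.sum_comm]
  apply Finset.sum_congr rfl
  intro a _
  rw [← Finset.mul_sum]
  congr 1
  rw [Finset.sum_div, ← Finset.sum_filter_add_sum_filter_not univ (fun b => b ∈ NN (i + 1) a)]
  have e2 : ∑ b ∈ univ.filter (fun b => ¬ b ∈ NN (i + 1) a), (if b ∈ NN (i + 1) a then 1 / ((NN (i + 1) a).card : ℝ) else 0) * h b = 0 := by
    apply Finset.sum_eq_zero
    intro b hb
    rw [Finset.mem_filter] at hb
    rw [if_neg hb.2, zero_mul]
  rw [e2, add_zero]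
  have e3 : univ.filter (fun b => b ∈ NN (i + 1) a) = NN (i + 1) a := by ext b; simp
  rw [e3]
  apply Finset.sum_congr rfl
  intro b hb
  rw [if_pos hb]; ring

theorem law_nonneg (NN : ℕ → ι → Finset ι) (x : ι) (i : ℕ) : ∀ a, 0 ≤ law NN x i a := by
  induction i with
  | zero => intro a; simp only [law]; split_ifs <;> norm_num
  | succ i ih =>
    intro b
    simp only [law]
    apply Finset.sum_nonneg
    intro a _
    apply mul_nonneg (ih a)
    split_ifs <;> positivity

theorem law_sum (NN : ℕ → ι → Finset ι) (hNN : ∀ i a, (NN i a).Nonempty) (x : ι) (i : ℕ) : ∑ a, law NN x i a = 1 := by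
  induction i with
  | zero => simp [law]
  | succ i ih =>
    have := law_avg NN x i (fun _ => (1:ℝ))
    simp only [mul_one] at this
    rw [this]
    refine Eq.trans ?_ ih
    apply Finset.sum_congr rfl
    intro a _
    have h : (0:ℝ) < (NN (i + 1) a).card := by exact_mod_cast Finset.card_pos.2 (hNN _ _)
    rw [Finset.sum_const, nsmul_eq_mul, mul_one, div_self h.ne', mul_one]

/-- chain estimate from a start point `x` -/
theorem chain (d : ι → ι → ℝ) (hsymm : ∀ a b, d a b = d b a) (htri : ∀ a b c, d a c ≤ d a b + d b c)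
    (hself : ∀ a, d a a = 0) (hpos : ∀ a b, a ≠ b → 0 < d a b) (p : ℝ) (hp : 1 ≤ p)
    (K : ℕ) (hK1 : 1 ≤ K) (hK : 2 * (16:ℝ) ^ p ≤ K)
    (NN : ℕ → ι → Finset ι) (hNNc : ∀ i a, (NN i a).card = min (K ^ i) (Fintype.card ι))
    (hNN : ∀ i a, ∀ x ∈ NN i a, ∀ y ∉ NN i a, d a x ≤ d a y)
    (u : ι) (δ : ℝ) (hδ : 0 < δ) (J : ℕ)
    (hJ1 : ∀ j ≤ J, K ^ j ≤ (univ.filter fun x => d u x ≤ 8 ^ j * δ).card)
    (hJ2 : (univ.filter fun x => d u x ≤ 8 ^ (J + 1) * δ).card < K ^ (J + 1))
    (g : ι → ℝ) (En : ℝ)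
    (hEn : ∀ i ≤ J, ∑ a, (∑ b ∈ NN (i + 1) a, (|g a - g b| / d a b) ^ p) / ((min (K ^ (i + 1)) (Fintype.card ι) : ℕ) : ℝ) ≤ 2 ^ (i + 1) * En)
    (x : ι) (hx : d u x ≤ δ) :
    ((K:ℝ) ^ (J + 1))⁻¹ * ∑ z ∈ univ.filter (fun z => d u z ≤ 8 ^ J * δ), |g x - g z| ≤ 64 * En ^ (1 / p) * δ := by
  have hp0 : 0 < p := by linarith
  have hcardpos : 0 < Fintype.card ι := Fintype.card_pos_iff.2 ⟨u⟩
  have hd0 : ∀ a b, 0 ≤ d a b := by
    intro a b
    by_cases h : a = b
    · rw [h, hself]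
    · exact (hpos a b h).le
  have hkpos : ∀ i, 0 < min (K ^ i) (Fintype.card ι) := fun i => lt_min (pow_pos (by omega) i) hcardpos
  have hNNne : ∀ i a, (NN i a).Nonempty := fun i a => by
    rw [← Finset.card_pos, hNNc]; exact hkpos i
  have hKr : (0:ℝ) < K := by exact_mod_cast hK1
  have hjn : ∀ j ≤ J, K ^ j ≤ Fintype.card ι := fun j hj => (hJ1 j hj).trans (Finset.card_le_univ _)
  -- support
  have hsupp : ∀ i ≤ J, ∀ a, law NN x i a ≠ 0 → d u a ≤ 2 * 8 ^ i * δ := by
    intro i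
    induction i with
    | zero =>
      intro _ a ha
      simp only [law] at ha
      have : a = x := by by_contra h; exact ha (if_neg h)
      rw [this]; linarith
    | succ i ih =>
      intro hi b hb
      simp only [law] at hb
      obtain ⟨a, _, ha⟩ := Finset.exists_ne_zero_of_sum_ne_zero hb
      have ha1 : law NN x i a ≠ 0 := left_ne_zero_of_mul ha
      have ha2 : b ∈ NN (i + 1) a := by
        by_contra h
        exact right_ne_zero_of_mul ha (if_neg h)
      have h1 := ih (by omega) a ha1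
      have hrad : d a b ≤ 8 ^ (i + 1) * δ + 2 * 8 ^ i * δ := by
        apply nn_radius (d a) (NN (i + 1) a) (hNN _ _) _ _ b ha2
        rw [hNNc]
        refine (min_le_left _ _).trans ((hJ1 (i + 1) hi).trans (Finset.card_le_card ?_))
        intro z hz
        rw [Finset.mem_filter] at hz ⊢
        refine ⟨mem_univ _, ?_⟩
        have := htri a u z
        rw [hsymm a u] at this
        linarith [hz.2]
      have h2 := htri u a b
      have h8 : (0:ℝ) < 8 ^ i := by positivity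
      rw [pow_succ] at hrad ⊢
      nlinarith [mul_pos h8 hδ]
  -- pointwise bound
  have hMb : ∀ i ≤ J, ∀ a, law NN x i a ≤ ((K:ℝ) ^ i)⁻¹ := by
    intro i hi a
    cases i with
    | zero => simp only [law, pow_zero, inv_one]; split_ifs <;> norm_num
    | succ i =>
      simp only [law]
      calc ∑ a', law NN x i a' * (if a ∈ NN (i + 1) a' then 1 / ((NN (i + 1) a').card : ℝ) else 0)
          ≤ ∑ a', law NN x i a' * ((K:ℝ) ^ (i + 1))⁻¹ := by
            apply Finset.sum_le_sum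
            intro a' _
            apply mul_le_mul_of_nonneg_left _ (law_nonneg _ _ _ _)
            split_ifs
            · rw [hNNc, min_eq_left (hjn _ hi), one_div]; push_cast; rfl
            · positivity
        _ = ((K:ℝ) ^ (i + 1))⁻¹ := by rw [← Finset.sum_mul, law_sum NN hNNne, one_mul]
  have hEnn : 0 ≤ En := by
    have h1 := hEn 0 (Nat.zero_le _)
    have h2 : 0 ≤ ∑ a, (∑ b ∈ NN (0 + 1) a, (|g a - g b| / d a b) ^ p) / ((min (K ^ (0 + 1)) (Fintype.card ι) : ℕ) : ℝ) := by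
      apply Finset.sum_nonneg
      intro a _
      apply div_nonneg _ (Nat.cast_nonneg _)
      exact Finset.sum_nonneg fun b _ => Real.rpow_nonneg (div_nonneg (abs_nonneg _) (hd0 _ _)) _
    have h3 := h2.trans h1
    norm_num at h3
    exact h3
  set A : ℝ := En ^ (1 / p) with hA
  have hA0 : 0 ≤ A := Real.rpow_nonneg hEnn _
  -- numeric bound
  have hnum : ∀ i ≤ J, (((K:ℝ) ^ i)⁻¹ * (2 ^ (i + 1) * En)) ^ (1 / p) ≤ 2 * (1 / 16) ^ i * A := by
    intro i _
    have h1 : ((K:ℝ) ^ i)⁻¹ * (2 ^ (i + 1) * En) ≤ 2 * ((1 / 16 : ℝ) ^ i) ^ p * En := by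
      rw [← mul_assoc]
      apply mul_le_mul_of_nonneg_right _ hEnn
      have h2 : (2 * (16:ℝ) ^ p) ^ i ≤ (K:ℝ) ^ i := pow_le_pow_left₀ (by positivity) hK i
      have h3 : ((K:ℝ) ^ i)⁻¹ ≤ ((2 * (16:ℝ) ^ p) ^ i)⁻¹ := inv_anti₀ (by positivity) h2
      calc ((K:ℝ) ^ i)⁻¹ * 2 ^ (i + 1) ≤ ((2 * (16:ℝ) ^ p) ^ i)⁻¹ * 2 ^ (i + 1) :=
            mul_le_mul_of_nonneg_right h3 (by positivity)
        _ = 2 * ((1 / 16 : ℝ) ^ i) ^ p := by
            have h4 : ((1 / 16 : ℝ) ^ i) ^ p = (((16:ℝ) ^ p) ^ i)⁻¹ := by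
              rw [one_div, inv_pow, Real.inv_rpow (by positivity), ← Real.rpow_natCast, ← Real.rpow_natCast, ← Real.rpow_mul (by norm_num),
                ← Real.rpow_mul (by norm_num)]
              congr 2
              ring
            rw [h4, mul_pow, pow_succ]
            field_simp
    have h5 : (2 * ((1 / 16 : ℝ) ^ i) ^ p * En) ^ (1 / p) = 2 ^ (1 / p) * (1 / 16) ^ i * A := by
      rw [Real.mul_rpow (by positivity) hEnn, Real.mul_rpow (by norm_num) (by positivity), ← Real.rpow_mul (by positivity),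
        mul_one_div_cancel hp0.ne', Real.rpow_one]
    have h6 : (2:ℝ) ^ (1 / p) ≤ 2 := by
      have : (2:ℝ) ^ (1 / p) ≤ 2 ^ (1:ℝ) := Real.rpow_le_rpow_of_exponent_le (by norm_num) (by rw [div_le_one hp0]; exact hp)
      rwa [Real.rpow_one] at this
    calc (((K:ℝ) ^ i)⁻¹ * (2 ^ (i + 1) * En)) ^ (1 / p) ≤ (2 * ((1 / 16 : ℝ) ^ i) ^ p * En) ^ (1 / p) :=
          Real.rpow_le_rpow (by positivity) h1 (by positivity)
      _ = 2 ^ (1 / p) * (1 / 16) ^ i * A := h5
      _ ≤ 2 * (1 / 16) ^ i * A := by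
          apply mul_le_mul_of_nonneg_right _ hA0
          exact mul_le_mul_of_nonneg_right h6 (by positivity)
  -- one increment
  have hinc : ∀ i ≤ J, ∀ y : ι → ι → ℝ,
      (∀ a, law NN x i a ≠ 0 → ∀ b ∈ NN (i + 1) a, y a b ≤ (16 * 8 ^ i * δ) * (|g a - g b| / d a b)) →
      ∑ a, law NN x i a * ((∑ b ∈ NN (i + 1) a, y a b) / (NN (i + 1) a).card) ≤ 32 * (1 / 2) ^ i * A * δ := by
    intro i hi y hy
    have h1 := holder_step p hp (law NN x i) (law_nonneg NN x i) (law_sum NN hNNne x i) _ (hMb i hi) (NN (i + 1))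
      (min (K ^ (i + 1)) (Fintype.card ι)) (hkpos _) (hNNc _) (fun a b => |g a - g b| / d a b)
      (fun a b => div_nonneg (abs_nonneg _) (hd0 _ _)) y (16 * 8 ^ i * δ) (by positivity) hy
    simp only [hNNc]
    refine h1.trans ?_
    have h2 : (((K:ℝ) ^ i)⁻¹ * ∑ a, (∑ b ∈ NN (i + 1) a, (|g a - g b| / d a b) ^ p) / ((min (K ^ (i + 1)) (Fintype.card ι) : ℕ) : ℝ)) ^ (1 / p)
        ≤ 2 * (1 / 16) ^ i * A := by
      refine le_trans ?_ (hnum i hi)
      apply Real.rpow_le_rpow _ _ (by positivity)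
      · apply mul_nonneg (by positivity)
        apply Finset.sum_nonneg
        intro a _
        apply div_nonneg _ (Nat.cast_nonneg _)
        exact Finset.sum_nonneg fun b _ => Real.rpow_nonneg (div_nonneg (abs_nonneg _) (hd0 _ _)) _
      · exact mul_le_mul_of_nonneg_left (hEn i hi) (by positivity)
    refine (mul_le_mul_of_nonneg_left h2 (by positivity)).trans (le_of_eq ?_)
    have h3 : (8:ℝ) ^ i * (1 / 16) ^ i = (1 / 2) ^ i := by rw [← mul_pow]; norm_num
    calc 16 * 8 ^ i * δ * (2 * (1 / 16) ^ i * A) = 32 * ((8:ℝ) ^ i * (1 / 16) ^ i) * A * δ := by ring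
      _ = _ := by rw [h3]
  have hyd : ∀ a b ρ, d a b ≤ ρ → |g a - g b| ≤ ρ * (|g a - g b| / d a b) := by
    intro a b ρ h
    by_cases hab : a = b
    · subst hab; simp
    · have hdp := hpos a b hab
      rw [mul_div_assoc', le_div_iff₀ hdp, mul_comm]
      exact mul_le_mul_of_nonneg_right h (abs_nonneg _)
  -- accumulated increments
  have hacc : ∀ i ≤ J, ∑ a, law NN x i a * |g x - g a| ≤ (64 - 64 * (1 / 2) ^ i) * A * δ := by
    intro i
    induction i with
    | zero => intro _; simp [law]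
    | succ i ih =>
      intro hi
      rw [law_avg]
      have h1 := ih (by omega)
      have h2 := hinc i (by omega) (fun a b => |g a - g b|) (by
        intro a ha b hb
        apply hyd
        have h3 := hsupp i (by omega) a ha
        have hrad : d a b ≤ 8 ^ (i + 1) * δ + 2 * 8 ^ i * δ := by
          apply nn_radius (d a) (NN (i + 1) a) (hNN _ _) _ _ b hb
          rw [hNNc]
          refine (min_le_left _ _).trans ((hJ1 (i + 1) hi).trans (Finset.card_le_card ?_))
          intro z hz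
          rw [Finset.mem_filter] at hz ⊢
          refine ⟨mem_univ _, ?_⟩
          have := htri a u z
          rw [hsymm a u] at this
          linarith [hz.2]
        have h8 : (0:ℝ) < 8 ^ i := by positivity
        rw [pow_succ] at hrad
        nlinarith [mul_pos h8 hδ])
      have h4 : ∑ a, law NN x i a * ((∑ b ∈ NN (i + 1) a, |g x - g b|) / (NN (i + 1) a).card) ≤
          ∑ a, law NN x i a * |g x - g a| + ∑ a, law NN x i a * ((∑ b ∈ NN (i + 1) a, |g a - g b|) / (NN (i + 1) a).card) := by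
        rw [← Finset.sum_add_distrib]
        apply Finset.sum_le_sum
        intro a _
        rw [← mul_add]
        apply mul_le_mul_of_nonneg_left _ (law_nonneg _ _ _ _)
        have hc : (0:ℝ) < (NN (i + 1) a).card := by exact_mod_cast Finset.card_pos.2 (hNNne _ _)
        rw [div_le_iff₀ hc, add_mul, div_mul_cancel₀ _ hc.ne']
        calc ∑ b ∈ NN (i + 1) a, |g x - g b| ≤ ∑ b ∈ NN (i + 1) a, (|g x - g a| + |g a - g b|) :=
              Finset.sum_le_sum fun b _ => abs_sub_le _ _ _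
          _ = _ := by rw [Finset.sum_add_distrib, Finset.sum_const, nsmul_eq_mul]; ring
      have h5 : (64 - 64 * (1 / 2 : ℝ) ^ (i + 1)) * A * δ = (64 - 64 * (1 / 2) ^ i) * A * δ + 32 * (1 / 2) ^ i * A * δ := by
        rw [pow_succ]; ring
      rw [h5]
      exact h4.trans (add_le_add h1 h2)
  -- the last step
  set B : Finset ι := univ.filter (fun z => d u z ≤ 8 ^ J * δ) with hB
  have hBsub : ∀ a, law NN x J a ≠ 0 → B ⊆ NN (J + 1) a := by
    intro a ha
    have h1 := hsupp J le_rfl a ha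
    have h8 : (0:ℝ) < 8 ^ J := by positivity
    have h8d := mul_pos h8 hδ
    have h2 : (univ.filter fun z => d a z ≤ 3 * 8 ^ J * δ) ⊆ NN (J + 1) a := by
      apply nn_contains (d a) (NN (J + 1) a) (hNN _ _)
      rw [hNNc, le_min_iff]
      refine ⟨?_, Finset.card_le_univ _⟩
      refine le_trans (Finset.card_le_card ?_) hJ2.le
      intro z hz
      rw [Finset.mem_filter] at hz ⊢
      refine ⟨mem_univ _, ?_⟩
      have := htri u a z
      rw [pow_succ]
      nlinarith [hz.2]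
    refine Finset.Subset.trans ?_ h2
    intro z hz
    rw [hB, Finset.mem_filter] at hz
    rw [Finset.mem_filter]
    refine ⟨mem_univ _, ?_⟩
    have := htri a u z
    rw [hsymm a u] at this
    nlinarith [hz.2]
  have hBcard : (B.card : ℝ) ≤ ((min (K ^ (J + 1)) (Fintype.card ι) : ℕ) : ℝ) := by
    have h1 : B.card ≤ min (K ^ (J + 1)) (Fintype.card ι) := by
      rw [le_min_iff]
      refine ⟨?_, Finset.card_le_univ _⟩
      refine le_trans (Finset.card_le_card ?_) hJ2.le
      intro z hz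
      rw [hB, Finset.mem_filter] at hz
      rw [Finset.mem_filter]
      refine ⟨mem_univ _, hz.2.trans ?_⟩
      apply mul_le_mul_of_nonneg_right _ hδ.le
      exact pow_le_pow_right₀ (by norm_num) (Nat.le_succ _)
    exact_mod_cast h1
  have hlast := hinc J le_rfl (fun a b => if b ∈ B then |g a - g b| else 0) (by
    intro a ha b hb
    by_cases hbB : b ∈ B
    · simp only [if_pos hbB]
      apply hyd
      have h1 := hsupp J le_rfl a ha
      have h8 : (0:ℝ) < 8 ^ J := by positivity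
      have h8d := mul_pos h8 hδ
      rw [hB, Finset.mem_filter] at hbB
      have := htri a u b
      rw [hsymm a u] at this
      nlinarith [hbB.2]
    · simp only [if_neg hbB]
      exact mul_nonneg (by positivity) (div_nonneg (abs_nonneg _) (hd0 _ _)))
  have hkp : (0:ℝ) < ((min (K ^ (J + 1)) (Fintype.card ι) : ℕ) : ℝ) := by exact_mod_cast hkpos _
  have hfin : ((K:ℝ) ^ (J + 1))⁻¹ * ∑ z ∈ B, |g x - g z| ≤
      ∑ a, law NN x J a * |g x - g a| + ∑ a, law NN x J a * ((∑ b ∈ NN (J + 1) a, if b ∈ B then |g a - g b| else 0) / (NN (J + 1) a).card) := by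
    have h1 : ((K:ℝ) ^ (J + 1))⁻¹ * ∑ z ∈ B, |g x - g z| = ∑ a, law NN x J a * (((K:ℝ) ^ (J + 1))⁻¹ * ∑ z ∈ B, |g x - g z|) := by
      rw [← Finset.sum_mul, law_sum NN hNNne, one_mul]
    rw [h1, ← Finset.sum_add_distrib]
    apply Finset.sum_le_sum
    intro a _
    by_cases ha : law NN x J a = 0
    · rw [ha]; simp
    · rw [← mul_add]
      apply mul_le_mul_of_nonneg_left _ (law_nonneg _ _ _ _)
      have h2 : ∑ b ∈ NN (J + 1) a, (if b ∈ B then |g a - g b| else 0) = ∑ b ∈ B, |g a - g b| := by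
        rw [← Finset.sum_filter]
        congr 1
        ext b
        rw [Finset.mem_filter]
        exact ⟨fun h => h.2, fun h => ⟨hBsub a ha h, h⟩⟩
      rw [h2, hNNc]
      have h3 : ((K:ℝ) ^ (J + 1))⁻¹ ≤ (((min (K ^ (J + 1)) (Fintype.card ι) : ℕ) : ℝ))⁻¹ := by
        apply inv_anti₀ hkp
        have : min (K ^ (J + 1)) (Fintype.card ι) ≤ K ^ (J + 1) := min_le_left _ _
        exact_mod_cast this
      calc ((K:ℝ) ^ (J + 1))⁻¹ * ∑ z ∈ B, |g x - g z| ≤ (((min (K ^ (J + 1)) (Fintype.card ι) : ℕ) : ℝ))⁻¹ * ∑ z ∈ B, (|g x - g a| + |g a - g z|) := by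
            apply mul_le_mul h3 _ (Finset.sum_nonneg fun _ _ => abs_nonneg _) (by positivity)
            exact Finset.sum_le_sum fun z _ => abs_sub_le _ _ _
        _ = (((min (K ^ (J + 1)) (Fintype.card ι) : ℕ) : ℝ))⁻¹ * B.card * |g x - g a| + (((min (K ^ (J + 1)) (Fintype.card ι) : ℕ) : ℝ))⁻¹ * ∑ z ∈ B, |g a - g z| := by
            rw [Finset.sum_add_distrib, Finset.sum_const, nsmul_eq_mul]; ring
        _ ≤ |g x - g a| + (∑ z ∈ B, |g a - g z|) / ((min (K ^ (J + 1)) (Fintype.card ι) : ℕ) : ℝ) := by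
            apply add_le_add
            · have h4 : (((min (K ^ (J + 1)) (Fintype.card ι) : ℕ) : ℝ))⁻¹ * B.card ≤ 1 := by
                rw [inv_mul_le_iff₀ hkp, mul_one]; exact hBcard
              calc _ ≤ 1 * |g x - g a| := mul_le_mul_of_nonneg_right h4 (abs_nonneg _)
                _ = _ := one_mul _
            · rw [div_eq_inv_mul]
  have h9 := hacc J le_rfl
  refine hfin.trans ((add_le_add h9 hlast).trans ?_)
  have h10 : 0 ≤ (1 / 2 : ℝ) ^ J * A * δ := by positivity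
  nlinarith

end Vale.Agent.P249
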