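import Mathlib

set_option linter.unusedVariables false
set_option linter.unusedSectionVars false

open Finset SimpleGraph

namespace Vale.Agent.P249

variable {ι : Type*} [DecidableEq ι]

/-- the graph with edge set `F` -/
abbrev gr (F : Finset (Sym2 ι)) : SimpleGraph ι := SimpleGraph.fromEdgeSet (F : Set (Sym2 ι))

/-- greedy spanner -/
theorem greedy (w : Sym2 ι → ℝ) (t : ℕ) (ht : 1 ≤ t) (Q : Finset (Sym2 ι)) :
    ∃ E ⊆ Q, (∀ F ⊆ E, F.card ≤ t + 1 → (gr F).IsAcyclic) ∧
      ∀ u v, s(u, v) ∈ Q → ∃ F ⊆ E, F.card ≤ t ∧ (∀ f ∈ F, w f ≤ w s(u, v)) ∧ (gr F).Reachable u v := by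
  induction Q using Finset.induction_on_max_value w with
  | empty =>
    refine ⟨∅, Finset.Subset.refl _, ?_, ?_⟩
    · intro F hF _
      have : F = ∅ := Finset.subset_empty.1 hF
      subst this
      simp only [gr, Finset.coe_empty, SimpleGraph.fromEdgeSet_empty]
      exact SimpleGraph.isAcyclic_bot
    · intro u v h
      simp at h
  | insert a s ha hmax ih =>
    obtain ⟨E, hE, h1, h2⟩ := ih
    by_cases h : ∀ F ⊆ insert a E, F.card ≤ t + 1 → (gr F).IsAcyclic
    · refine ⟨insert a E, insert_subset_insert _ hE, h, ?_⟩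
      intro u v huv
      rcases mem_insert.1 huv with e | huv
      · subst e
        refine ⟨{s(u, v)}, by simp, by simpa using ht, by simp, ?_⟩
        by_cases huv : u = v
        · subst huv; exact SimpleGraph.Reachable.refl _
        · apply SimpleGraph.Adj.reachable
          simp [gr, huv]
      · obtain ⟨F, hF, hc, hw, hr⟩ := h2 u v huv
        exact ⟨F, hF.trans (subset_insert _ _), hc, hw, hr⟩
    · push Not at h
      obtain ⟨F, hF, hc, hn⟩ := h
      refine ⟨E, hE.trans (subset_insert _ _), h1, ?_⟩
      intro u v huv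
      rcases mem_insert.1 huv with e | huv
      · subst e
        have hsub : F.erase s(u, v) ⊆ E := by
          intro x hx
          rcases mem_insert.1 (hF (Finset.mem_of_mem_erase hx)) with h | h
          · exact absurd h (Finset.ne_of_mem_erase hx)
          · exact h
        have haF : s(u, v) ∈ F := by
          by_contra hna
          apply hn
          rw [Finset.erase_eq_of_notMem hna] at hsub
          exact h1 F hsub hc
        have hcard : (F.erase s(u, v)).card ≤ t := by
          rw [Finset.card_erase_of_mem haF]; omega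
        refine ⟨F.erase s(u, v), hsub, hcard, ?_, ?_⟩
        · intro f hf
          exact hmax f (hE (hsub hf))
        · by_contra hr
          have h3 := SimpleGraph.IsAcyclic.sup_edge_of_not_reachable hr (h1 _ hsub (by omega))
          apply hn
          apply h3.anti
          intro x y hxy
          simp only [gr, SimpleGraph.fromEdgeSet_adj, Finset.mem_coe] at hxy
          simp only [SimpleGraph.sup_adj, gr, SimpleGraph.fromEdgeSet_adj, Finset.mem_coe, SimpleGraph.edge_adj, Finset.mem_erase]
          by_cases he : s(x, y) = s(u, v)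
          · right
            rw [Sym2.eq_iff] at he
            refine ⟨?_, hxy.2⟩
            rcases he with ⟨rfl, rfl⟩ | ⟨rfl, rfl⟩
            · left; exact ⟨rfl, rfl⟩
            · right; exact ⟨rfl, rfl⟩
          · left
            exact ⟨⟨he, hxy.1⟩, hxy.2⟩
      · exact h2 u v huv

/-- increments of `g` as a function of the edge -/
noncomputable def dif (g : ι → ℝ) : Sym2 ι → ℝ :=
  Sym2.lift ⟨fun a b => |g a - g b|, fun a b => abs_sub_comm _ _⟩

theorem dif_nonneg (g : ι → ℝ) (e : Sym2 ι) : 0 ≤ dif g e := by
  induction e with | _ a b => exact abs_nonneg _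

theorem walk_bound (g : ι → ℝ) {G : SimpleGraph ι} {u v : ι} (p : G.Walk u v) :
    |g u - g v| ≤ (p.edges.map (dif g)).sum := by
  induction p with
  | nil => simp
  | cons h p ih =>
    simp only [Walk.edges_cons, List.map_cons, List.sum_cons]
    exact (abs_sub_le _ _ _).trans (add_le_add le_rfl ih)

theorem reach_bound (g : ι → ℝ) (F : Finset (Sym2 ι)) (u v : ι) (h : (gr F).Reachable u v) :
    |g u - g v| ≤ ∑ e ∈ F, dif g e := by
  obtain ⟨p, hp⟩ := h.exists_isPath
  refine (walk_bound g p).trans ?_
  have hnd := hp.isTrail.edges_nodup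
  rw [← List.sum_toFinset _ hnd]
  apply Finset.sum_le_sum_of_subset_of_nonneg
  · intro e he
    have := p.edges_subset_edgeSet (List.mem_toFinset.1 he)
    simp only [gr, SimpleGraph.edgeSet_fromEdgeSet, Set.mem_sdiff, Finset.mem_coe] at this
    exact this.1
  · intro e _ _
    exact dif_nonneg g e

section moore

variable (nx : ι × ι → Bool → ι) (v0 : ι)

/-- state (previous vertex, current vertex) -/
def st : List Bool → ι × ι
  | [] => (v0, v0)
  | b :: l => ((st l).2, nx (st l) b)

/-- visited vertices, last first -/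
def sup : List Bool → List ι
  | [] => [v0]
  | b :: l => nx (st nx v0 l) b :: sup l

/-- used edges, last first -/
def eds : List Bool → List (Sym2 ι)
  | [] => []
  | b :: l => s(nx (st nx v0 l) b, (st nx v0 l).2) :: eds l

theorem sup_len (l : List Bool) : (eds nx v0 l).length = l.length := by
  induction l with
  | nil => rfl
  | cons b l ih => simp [eds, ih]

theorem sup_inj (hnx : ∀ l, nx (st nx v0 l) true ≠ nx (st nx v0 l) false) :
    ∀ l l' : List Bool, l.length = l'.length → sup nx v0 l = sup nx v0 l' → l = l' := by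
  intro l
  induction l with
  | nil =>
    intro l' h _
    exact (List.length_eq_zero_iff.1 h.symm).symm
  | cons b l ih =>
    intro l' h1 h2
    cases l' with
    | nil => simp at h1
    | cons b' l' =>
      simp only [sup, List.cons.injEq] at h2
      have := ih l' (by simpa using h1) h2.2
      subst this
      have hb : b = b' := by
        by_contra hne
        have hx := hnx l
        rcases b with _ | _ <;> rcases b' with _ | _
        · exact hne rfl
        · exact hx h2.1.symm
        · exact hx h2.1
        · exact hne rfl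
      rw [hb]

end moore

theorem moore [Fintype ι] (E : Finset (Sym2 ι)) (m : ℕ) (hn : Fintype.card ι < 2 ^ m)
    (hdiag : ∀ e ∈ E, ¬ e.IsDiag) (h : ∀ F ⊆ E, F.card ≤ 2 * m → (gr F).IsAcyclic) :
    E.card ≤ 2 * Fintype.card ι := by
  by_contra hcon
  push Not at hcon
  let EW : Finset ι → Finset (Sym2 ι) := fun W => E.filter fun e => ∀ x ∈ e, x ∈ W
  have hne : ((univ : Finset (Finset ι)).filter fun W => 2 * W.card < (EW W).card).Nonempty := by
    refine ⟨univ, ?_⟩
    rw [Finset.mem_filter]
    refine ⟨mem_univ _, ?_⟩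
    have : EW univ = E := by
      simp [EW]
    rw [this, Finset.card_univ]
    exact hcon
  obtain ⟨W, hW, hmin⟩ := Finset.exists_min_image _ (fun W => W.card) hne
  rw [Finset.mem_filter] at hW
  have hWc := hW.2
  have hdeg : ∀ v ∈ W, 3 ≤ (W.filter fun x => s(v, x) ∈ E).card := by
    intro v hv
    have h1 : (EW (W.erase v)).card ≤ 2 * (W.erase v).card := by
      by_contra hc
      push Not at hc
      have := hmin (W.erase v) (by rw [Finset.mem_filter]; exact ⟨mem_univ _, hc⟩)
      have h2 := Finset.card_erase_lt_of_mem hv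
      omega
    rw [Finset.card_erase_of_mem hv] at h1
    have hWpos : 0 < W.card := Finset.card_pos.2 ⟨v, hv⟩
    have h2 : EW W ⊆ EW (W.erase v) ∪ (W.filter fun x => s(v, x) ∈ E).image fun x => s(v, x) := by
      intro e he
      rw [Finset.mem_filter] at he
      rw [Finset.mem_union]
      by_cases hve : v ∈ e
      · right
        obtain ⟨x, rfl⟩ := Sym2.mem_iff_exists.1 hve
        rw [Finset.mem_image]
        refine ⟨x, ?_, rfl⟩
        rw [Finset.mem_filter]
        exact ⟨he.2 x (Sym2.mem_mk_right _ _), he.1⟩
      · left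
        rw [Finset.mem_filter]
        refine ⟨he.1, ?_⟩
        intro x hx
        rw [Finset.mem_erase]
        refine ⟨?_, he.2 x hx⟩
        rintro rfl
        exact hve hx
    have h3 := Finset.card_le_card h2
    have h4 := Finset.card_union_le (EW (W.erase v)) ((W.filter fun x => s(v, x) ∈ E).image fun x => s(v, x))
    have h5 : ((W.filter fun x => s(v, x) ∈ E).image fun x => s(v, x)).card ≤ (W.filter fun x => s(v, x) ∈ E).card := Finset.card_image_le
    omega
  have hnx : ∀ z : ι × ι, ∃ c : Bool → ι, z.2 ∈ W → (∀ b, c b ∈ W ∧ s(z.2, c b) ∈ E ∧ c b ≠ z.1) ∧ c true ≠ c false := by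
    intro z
    by_cases hz : z.2 ∈ W
    · have h1 := hdeg z.2 hz
      have h2 : 1 < ((W.filter fun x => s(z.2, x) ∈ E).erase z.1).card := by
        have := Finset.pred_card_le_card_erase (s := W.filter fun x => s(z.2, x) ∈ E) (a := z.1)
        omega
      obtain ⟨a, ha, b, hb, hab⟩ := Finset.one_lt_card.1 h2
      rw [Finset.mem_erase, Finset.mem_filter] at ha hb
      refine ⟨fun c => if c then a else b, fun _ => ⟨?_, by simpa using hab⟩⟩
      intro c
      cases c
      · simpa using ⟨hb.2.1, hb.2.2, hb.1⟩
      · simpa using ⟨ha.2.1, ha.2.2, ha.1⟩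
    · exact ⟨fun _ => z.1, fun h => absurd h hz⟩
  choose nx hnx using hnx
  have hWne : W.Nonempty := by
    rw [Finset.nonempty_iff_ne_empty]
    rintro rfl
    have : EW ∅ = ∅ := by
      simp only [EW]
      rw [Finset.filter_eq_empty_iff]
      intro e _ he
      induction e with | _ a b => exact absurd (he a (Sym2.mem_mk_left _ _)) (Finset.notMem_empty _)
    rw [this] at hWc
    simp at hWc
  obtain ⟨v0, hv0⟩ := hWne
  have hstW : ∀ l, (st nx v0 l).2 ∈ W := by
    intro l
    induction l with
    | nil => exact hv0
    | cons b l ih => exact ((hnx _ ih).1 b).1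
  have hwalk : ∀ l, ∃ p : (gr E).Walk (st nx v0 l).2 v0, p.edges = eds nx v0 l ∧ p.support = sup nx v0 l := by
    intro l
    induction l with
    | nil => exact ⟨Walk.nil, rfl, rfl⟩
    | cons b l ih =>
      obtain ⟨p, h1, h2⟩ := ih
      have hx := (hnx _ (hstW l)).1 b
      have hadj : (gr E).Adj (nx (st nx v0 l) b) (st nx v0 l).2 := by
        simp only [gr, SimpleGraph.fromEdgeSet_adj, Finset.mem_coe]
        refine ⟨by rw [Sym2.eq_swap]; exact hx.2.1, ?_⟩
        intro he
        exact hdiag _ hx.2.1 (by rw [Sym2.mk_isDiag_iff]; exact he.symm)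
      have e1 : (Walk.cons hadj p).edges = eds nx v0 (b :: l) := by
        have := Walk.edges_cons hadj p
        rw [h1] at this
        exact this
      have e2 : (Walk.cons hadj p).support = sup nx v0 (b :: l) := by
        have := Walk.support_cons hadj p
        rw [h2] at this
        exact this
      exact ⟨Walk.cons hadj p, e1, e2⟩
  have hchain : ∀ l, List.IsChain (· ≠ ·) (eds nx v0 l) := by
    intro l
    induction l with
    | nil => exact List.IsChain.nil
    | cons b l ih =>
      cases l with
      | nil => exact List.IsChain.singleton _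
      | cons c l =>
        have hx := (hnx _ (hstW (c :: l))).1 b
        refine List.IsChain.cons_cons ?_ ih
        intro he
        rw [Sym2.eq_iff] at he
        rcases he with ⟨e1, e2⟩ | ⟨e1, e2⟩
        · exact hdiag _ hx.2.1 (by rw [Sym2.mk_isDiag_iff, e1]; rfl)
        · exact hx.2.2 e1
  -- pigeonhole
  obtain ⟨f, f', hff, hend⟩ := Fintype.exists_ne_map_eq_of_card_lt
    (fun f : Fin m → Bool => (st nx v0 (List.ofFn f)).2) (by simpa using hn)
  set l := List.ofFn f with hl
  set l' := List.ofFn f' with hl'
  obtain ⟨p, hp1, hp2⟩ := hwalk l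
  obtain ⟨q, hq1, hq2⟩ := hwalk l'
  have hqq : ∃ q' : (gr E).Walk (st nx v0 l).2 v0, q'.edges = eds nx v0 l' ∧ q'.support = sup nx v0 l' :=
    ⟨q.copy hend.symm rfl, by rw [Walk.edges_copy]; exact hq1, by rw [Walk.support_copy]; exact hq2⟩
  obtain ⟨q', hq'1, hq'2⟩ := hqq
  set F : Finset (Sym2 ι) := p.edges.toFinset ∪ q'.edges.toFinset with hF
  have hFE : F ⊆ E := by
    intro e he
    rw [hF, Finset.mem_union, List.mem_toFinset, List.mem_toFinset] at he
    have : e ∈ (gr E).edgeSet := by
      rcases he with he | he
      · exact p.edges_subset_edgeSet he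
      · exact q'.edges_subset_edgeSet he
    simp only [gr, SimpleGraph.edgeSet_fromEdgeSet, Set.mem_sdiff, Finset.mem_coe] at this
    exact this.1
  have hFc : F.card ≤ 2 * m := by
    have h1 := Finset.card_union_le p.edges.toFinset q'.edges.toFinset
    have h2 := p.edges.toFinset_card_le
    have h3 := q'.edges.toFinset_card_le
    rw [hp1, sup_len, hl, List.length_ofFn] at h2
    rw [hq'1, sup_len, hl', List.length_ofFn] at h3
    rw [← hl, ← hp1] at h2
    rw [← hl', ← hq'1] at h3
    rw [hF]; omega
  have hac := h F hFE hFc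
  have hpF : ∀ e ∈ p.edges, e ∈ (gr F).edgeSet := by
    intro e he
    simp only [gr, SimpleGraph.edgeSet_fromEdgeSet, Set.mem_sdiff, Finset.mem_coe]
    refine ⟨by rw [hF, Finset.mem_union, List.mem_toFinset]; exact Or.inl he, ?_⟩
    have := p.edges_subset_edgeSet he
    simp only [gr, SimpleGraph.edgeSet_fromEdgeSet, Set.mem_sdiff, Finset.mem_coe] at this
    exact this.2
  have hqF : ∀ e ∈ q'.edges, e ∈ (gr F).edgeSet := by
    intro e he
    simp only [gr, SimpleGraph.edgeSet_fromEdgeSet, Set.mem_sdiff, Finset.mem_coe]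
    refine ⟨by rw [hF, Finset.mem_union, List.mem_toFinset, List.mem_toFinset]; exact Or.inr he, ?_⟩
    have := q'.edges_subset_edgeSet he
    simp only [gr, SimpleGraph.edgeSet_fromEdgeSet, Set.mem_sdiff, Finset.mem_coe] at this
    exact this.2
  have hP : (p.transfer (gr F) hpF).IsPath := by
    rw [hac.isPath_iff_isChain, Walk.edges_transfer, hp1]; exact hchain l
  have hQ : (q'.transfer (gr F) hqF).IsPath := by
    rw [hac.isPath_iff_isChain, Walk.edges_transfer, hq'1]; exact hchain l'
  have heq : (⟨_, hP⟩ : (gr F).Path _ _) = ⟨_, hQ⟩ := (hac.subsingleton_path _ _).elim _ _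
  have heq' : p.transfer (gr F) hpF = q'.transfer (gr F) hqF := congrArg Subtype.val heq
  have hs : sup nx v0 l = sup nx v0 l' := by
    rw [← hp2, ← hq'2, ← Walk.support_transfer p hpF, ← Walk.support_transfer q' hqF, heq']
  have hll := sup_inj nx v0 (fun l => (hnx _ (hstW l)).2) l l' (by rw [hl, hl', List.length_ofFn, List.length_ofFn]) hs
  exact hff (List.ofFn_injective hll)

end Vale.Agent.P249
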