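import Mathlib
import Vale.Agent.P249.Spanner

set_option linter.unusedVariables false
set_option linter.unusedSectionVars false

open Finset SimpleGraph

namespace Vale.Agent.P249

variable {ι : Type*} [DecidableEq ι]

theorem energy [Fintype ι] (d : ι → ι → ℝ) (hsymm : ∀ u v, d u v = d v u)
    (hpos : ∀ u v, u ≠ v → 0 < d u v) (p : ℝ) (hp : 1 ≤ p) (m : ℕ) (hm : 1 ≤ m)
    (hn : Fintype.card ι < 2 ^ m) :
    ∃ E : Finset (ι × ι), (∀ e ∈ E, e.1 ≠ e.2) ∧ E.card ≤ 2 * Fintype.card ι ∧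
      ∀ (g : ι → ℝ) (u v : ι), u ≠ v →
        |g u - g v| ^ p ≤ (2 * m : ℝ) ^ (p - 1) * (d u v ^ p * ∑ e ∈ E, |g e.1 - g e.2| ^ p / d e.1 e.2 ^ p) := by
  let w : Sym2 ι → ℝ := Sym2.lift ⟨d, hsymm⟩
  obtain ⟨E, hEQ, h1, h2⟩ := greedy w (2 * m - 1) (by omega) ((univ : Finset (Sym2 ι)).filter fun e => ¬ e.IsDiag)
  have hdiag : ∀ e ∈ E, ¬ e.IsDiag := fun e he => (Finset.mem_filter.1 (hEQ he)).2
  have hcard := moore E m hn hdiag (fun F hF hc => h1 F hF (by omega))
  have hout : ∀ e : Sym2 ι, s((Quot.out e).1, (Quot.out e).2) = e := fun e => Quot.out_eq e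
  have hinj : Function.Injective (fun e : Sym2 ι => (Quot.out e : ι × ι)) := by
    intro e e' h
    simp only at h
    rw [← hout e, ← hout e', h]
  refine ⟨E.image fun e => (Quot.out e : ι × ι), ?_, ?_, ?_⟩
  · intro z hz
    obtain ⟨e, he, rfl⟩ := Finset.mem_image.1 hz
    have h3 := hdiag e he
    intro hc
    apply h3
    rw [← hout e, Sym2.mk_isDiag_iff]
    exact hc
  · rw [Finset.card_image_of_injective _ hinj]; exact hcard
  · intro g u v huv
    rw [Finset.sum_image (fun a _ b _ h => hinj h)]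
    obtain ⟨F, hFE, hFc, hFw, hr⟩ := h2 u v (by
      rw [Finset.mem_filter]
      exact ⟨mem_univ _, by rw [Sym2.mk_isDiag_iff]; exact huv⟩)
    have hb := reach_bound g F u v hr
    have hdif : ∀ e : Sym2 ι, dif g e = |g (Quot.out e).1 - g (Quot.out e).2| := by
      intro e
      conv_lhs => rw [← hout e]
      rfl
    have hw : ∀ e : Sym2 ι, w e = d (Quot.out e).1 (Quot.out e).2 := by
      intro e
      conv_lhs => rw [← hout e]
      rfl
    have hwpos : ∀ e ∈ E, 0 < w e := by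
      intro e he
      rw [hw]
      apply hpos
      intro hc
      apply hdiag e he
      rw [← hout e, Sym2.mk_isDiag_iff]
      exact hc
    have hpnn : (0:ℝ) ≤ p := by linarith
    have hduv : 0 < d u v := hpos u v huv
    have e1 : |g u - g v| ^ p ≤ (∑ e ∈ F, dif g e) ^ p := Real.rpow_le_rpow (abs_nonneg _) hb hpnn
    have e2 : (∑ e ∈ F, dif g e) ^ p ≤ (F.card : ℝ) ^ (p - 1) * ∑ e ∈ F, dif g e ^ p := by
      have := Real.rpow_sum_le_const_mul_sum_rpow F (fun e => dif g e) hp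
      simp only [abs_of_nonneg (dif_nonneg g _)] at this
      exact this
    have e3 : (F.card : ℝ) ^ (p - 1) ≤ (2 * m : ℝ) ^ (p - 1) := by
      apply Real.rpow_le_rpow (by positivity) _ (by linarith)
      have : F.card ≤ 2 * m := by omega
      exact_mod_cast this
    have hterm : ∀ e ∈ E, 0 ≤ dif g e ^ p / w e ^ p := by
      intro e he
      exact div_nonneg (Real.rpow_nonneg (dif_nonneg _ _) _) (Real.rpow_nonneg (hwpos e he).le _)
    have e4 : ∑ e ∈ F, dif g e ^ p ≤ d u v ^ p * ∑ e ∈ F, dif g e ^ p / w e ^ p := by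
      rw [Finset.mul_sum]
      apply Finset.sum_le_sum
      intro e he
      have hwe := hwpos e (hFE he)
      have hle : w e ^ p ≤ d u v ^ p := Real.rpow_le_rpow hwe.le (hFw e he) hpnn
      have hwp : 0 < w e ^ p := Real.rpow_pos_of_pos hwe p
      rw [mul_div_assoc', le_div_iff₀ hwp, mul_comm]
      exact mul_le_mul_of_nonneg_right hle (Real.rpow_nonneg (dif_nonneg _ _) _)
    have e5 : ∑ e ∈ F, dif g e ^ p / w e ^ p ≤ ∑ e ∈ E, dif g e ^ p / w e ^ p :=
      Finset.sum_le_sum_of_subset_of_nonneg hFE (fun e he _ => hterm e he)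
    have e6 : ∑ e ∈ E, dif g e ^ p / w e ^ p = ∑ e ∈ E, |g (Quot.out e).1 - g (Quot.out e).2| ^ p / d (Quot.out e).1 (Quot.out e).2 ^ p := by
      apply Finset.sum_congr rfl
      intro e _
      rw [hdif, hw]
    rw [e6] at e5
    have hk : (0:ℝ) ≤ (2 * m : ℝ) ^ (p - 1) := by positivity
    calc |g u - g v| ^ p ≤ (F.card : ℝ) ^ (p - 1) * ∑ e ∈ F, dif g e ^ p := e1.trans e2
      _ ≤ (2 * m : ℝ) ^ (p - 1) * ∑ e ∈ F, dif g e ^ p :=
        mul_le_mul_of_nonneg_right e3 (Finset.sum_nonneg fun e _ => Real.rpow_nonneg (dif_nonneg _ _) _)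
      _ ≤ (2 * m : ℝ) ^ (p - 1) * (d u v ^ p * ∑ e ∈ F, dif g e ^ p / w e ^ p) := mul_le_mul_of_nonneg_left e4 hk
      _ ≤ _ := mul_le_mul_of_nonneg_left (mul_le_mul_of_nonneg_left e5 (Real.rpow_nonneg hduv.le _)) hk

end Vale.Agent.P249
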