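import Mathlib

set_option linter.unusedVariables false
set_option linter.unusedSectionVars false

open Finset MeasureTheory

namespace Vale.Agent.P249

variable {Ω : Type*} [MeasurableSpace Ω] (ν : Measure Ω) [IsProbabilityMeasure ν]
variable {P : Type*} [Fintype P]

theorem exp_bound (x : ℝ) (hx : |x| ≤ 1) : Real.exp x ≤ 1 + x + x ^ 2 := by
  have := (abs_le.1 (Real.abs_exp_sub_one_sub_id_le hx)).2
  linarith

theorem one_step (g : P → Ω → ℝ) (S lam : ℝ) (hS : 1 ≤ S) (hlam : 0 ≤ lam) (hl1 : lam * S ≤ 1)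
    (h0 : ∀ q ω, 0 ≤ g q ω) (h1 : ∀ q ω, g q ω ≤ S) (hint : ∀ q, Integrable (g q) ν)
    (hI : ∀ q, ∫ ω, g q ω ∂ν = 1) (a b : P → ℝ) (ha : ∀ q, 0 ≤ a q) (hb : ∀ q, 0 ≤ b q) :
    ∃ ω, ∑ q, (a q * Real.exp (lam * (g q ω - 1)) + b q * Real.exp (-(lam * (g q ω - 1)))) ≤
      (∑ q, (a q + b q)) * (1 + lam ^ 2 * S) := by
  let H : Ω → ℝ := fun ω => ∑ q, (a q * (1 + lam * (g q ω - 1) + lam ^ 2 * ((S - 2) * g q ω + 1)) +
    b q * (1 - lam * (g q ω - 1) + lam ^ 2 * ((S - 2) * g q ω + 1)))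
  have hHint1 : ∀ q, Integrable (fun ω => a q * (1 + lam * (g q ω - 1) + lam ^ 2 * ((S - 2) * g q ω + 1)) +
    b q * (1 - lam * (g q ω - 1) + lam ^ 2 * ((S - 2) * g q ω + 1))) ν := by
    intro q
    have hg := hint q
    have e : (fun ω => a q * (1 + lam * (g q ω - 1) + lam ^ 2 * ((S - 2) * g q ω + 1)) +
      b q * (1 - lam * (g q ω - 1) + lam ^ 2 * ((S - 2) * g q ω + 1))) =
      fun ω => (a q * (1 - lam + lam ^ 2) + b q * (1 + lam + lam ^ 2)) +
        (a q * (lam + lam ^ 2 * (S - 2)) + b q * (-lam + lam ^ 2 * (S - 2))) * g q ω := by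
      funext ω; ring
    rw [e]
    exact (integrable_const _).add (hg.const_mul _)
  have hHI1 : ∀ q, ∫ ω, (a q * (1 + lam * (g q ω - 1) + lam ^ 2 * ((S - 2) * g q ω + 1)) +
    b q * (1 - lam * (g q ω - 1) + lam ^ 2 * ((S - 2) * g q ω + 1))) ∂ν = (a q + b q) * (1 + lam ^ 2 * (S - 1)) := by
    intro q
    have hg := hint q
    have e : (fun ω => a q * (1 + lam * (g q ω - 1) + lam ^ 2 * ((S - 2) * g q ω + 1)) +
      b q * (1 - lam * (g q ω - 1) + lam ^ 2 * ((S - 2) * g q ω + 1))) =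
      fun ω => (a q * (1 - lam + lam ^ 2) + b q * (1 + lam + lam ^ 2)) +
        (a q * (lam + lam ^ 2 * (S - 2)) + b q * (-lam + lam ^ 2 * (S - 2))) * g q ω := by
      funext ω; ring
    rw [e, integral_add (integrable_const _) (hg.const_mul _), integral_const_mul, hI q]
    simp
    ring
  have hHint : Integrable H ν := integrable_finsetSum _ (fun q _ => hHint1 q)
  have hHI : ∫ ω, H ω ∂ν = ∑ q, (a q + b q) * (1 + lam ^ 2 * (S - 1)) := by
    show ∫ ω, ∑ q, _ ∂ν = _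
    rw [integral_finsetSum _ (fun q _ => hHint1 q)]
    exact Finset.sum_congr rfl (fun q _ => hHI1 q)
  obtain ⟨ω, hω⟩ := exists_le_integral hHint
  refine ⟨ω, ?_⟩
  have hle : ∑ q, (a q * Real.exp (lam * (g q ω - 1)) + b q * Real.exp (-(lam * (g q ω - 1)))) ≤ H ω := by
    apply Finset.sum_le_sum
    intro q _
    have hg0 := h0 q ω
    have hg1 := h1 q ω
    have habs : |lam * (g q ω - 1)| ≤ 1 := by
      rw [abs_le]
      constructor
      · nlinarith
      · nlinarith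
    have hsq : (lam * (g q ω - 1)) ^ 2 ≤ lam ^ 2 * ((S - 2) * g q ω + 1) := by
      rw [mul_pow]
      apply mul_le_mul_of_nonneg_left _ (sq_nonneg _)
      nlinarith
    have k1 := exp_bound _ habs
    have k2 := exp_bound (-(lam * (g q ω - 1))) (by rw [abs_neg]; exact habs)
    have k3 : Real.exp (lam * (g q ω - 1)) ≤ 1 + lam * (g q ω - 1) + lam ^ 2 * ((S - 2) * g q ω + 1) := by linarith
    have k4 : Real.exp (-(lam * (g q ω - 1))) ≤ 1 - lam * (g q ω - 1) + lam ^ 2 * ((S - 2) * g q ω + 1) := by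
      rw [neg_sq] at k2
      linarith
    exact add_le_add (mul_le_mul_of_nonneg_left k3 (ha q)) (mul_le_mul_of_nonneg_left k4 (hb q))
  refine hle.trans (hω.trans ?_)
  rw [hHI, Finset.sum_mul]
  apply Finset.sum_le_sum
  intro q _
  apply mul_le_mul_of_nonneg_left _ (add_nonneg (ha q) (hb q))
  nlinarith [sq_nonneg lam]

theorem many_steps (g : P → Ω → ℝ) (S lam : ℝ) (hS : 1 ≤ S) (hlam : 0 ≤ lam) (hl1 : lam * S ≤ 1)
    (h0 : ∀ q ω, 0 ≤ g q ω) (h1 : ∀ q ω, g q ω ≤ S) (hint : ∀ q, Integrable (g q) ν)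
    (hI : ∀ q, ∫ ω, g q ω ∂ν = 1) (N : ℕ) :
    ∃ ω : Fin N → Ω, ∑ q, (Real.exp (lam * ∑ l, (g q (ω l) - 1)) + Real.exp (-(lam * ∑ l, (g q (ω l) - 1)))) ≤
      2 * (Fintype.card P) * (1 + lam ^ 2 * S) ^ N := by
  induction N with
  | zero =>
    refine ⟨fun i => i.elim0, ?_⟩
    simp
    apply le_of_eq
    ring
  | succ N ih =>
    obtain ⟨ω, hω⟩ := ih
    obtain ⟨ω0, hω0⟩ := one_step ν g S lam hS hlam hl1 h0 h1 hint hI
      (fun q => Real.exp (lam * ∑ l, (g q (ω l) - 1))) (fun q => Real.exp (-(lam * ∑ l, (g q (ω l) - 1))))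
      (fun q => (Real.exp_pos _).le) (fun q => (Real.exp_pos _).le)
    refine ⟨Fin.cons ω0 ω, ?_⟩
    have e : ∀ q, Real.exp (lam * ∑ l, (g q ((Fin.cons ω0 ω : Fin (N+1) → Ω) l) - 1)) + Real.exp (-(lam * ∑ l, (g q ((Fin.cons ω0 ω : Fin (N+1) → Ω) l) - 1))) =
      Real.exp (lam * ∑ l, (g q (ω l) - 1)) * Real.exp (lam * (g q ω0 - 1)) +
        Real.exp (-(lam * ∑ l, (g q (ω l) - 1))) * Real.exp (-(lam * (g q ω0 - 1))) := by
      intro q
      rw [Fin.sum_univ_succ, ← Real.exp_add, ← Real.exp_add]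
      simp only [Fin.cons_zero, Fin.cons_succ]
      congr 1
      · congr 1; ring
      · congr 1; ring
    rw [Finset.sum_congr rfl (fun q _ => e q)]
    refine hω0.trans ?_
    rw [show (1 + lam ^ 2 * S) ^ (N + 1) = (1 + lam ^ 2 * S) ^ N * (1 + lam ^ 2 * S) from pow_succ _ _, ← mul_assoc]
    apply mul_le_mul_of_nonneg_right hω
    nlinarith [sq_nonneg lam]

theorem sampling (g : P → Ω → ℝ) (S : ℝ) (hS : 1 ≤ S)
    (h0 : ∀ q ω, 0 ≤ g q ω) (h1 : ∀ q ω, g q ω ≤ S) (hint : ∀ q, Integrable (g q) ν)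
    (hI : ∀ q, ∫ ω, g q ω ∂ν = 1) (ε : ℝ) (hε : 0 < ε) (hε1 : ε ≤ 1) (N : ℕ)
    (hP : 1 ≤ Fintype.card P)
    (hN : 4 * S * Real.log (2 * Fintype.card P) / ε ^ 2 ≤ N) :
    ∃ ω : Fin N → Ω, ∀ q, |∑ l, g q (ω l) - N| ≤ ε * N := by
  have hSpos : 0 < S := by linarith
  set lam : ℝ := ε / (2 * S) with hlam
  have hlampos : 0 < lam := by positivity
  have hlS : lam * S = ε / 2 := by rw [hlam]; field_simp
  obtain ⟨ω, hω⟩ := many_steps ν g S lam hS hlampos.le (by rw [hlS]; linarith) h0 h1 hint hI N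
  refine ⟨ω, fun q => ?_⟩
  have hPpos : (0:ℝ) < Fintype.card P := by exact_mod_cast hP
  have hbound : (1 + lam ^ 2 * S) ^ N ≤ Real.exp (N * (lam ^ 2 * S)) := by
    rw [Real.exp_nat_mul]
    apply pow_le_pow_left₀ (by positivity)
    have := Real.add_one_le_exp (lam ^ 2 * S)
    linarith
  have hsum : ∑ l, (g q (ω l) - 1) = ∑ l, g q (ω l) - N := by
    rw [Finset.sum_sub_distrib]; simp
  have hsingle : Real.exp (lam * (∑ l, g q (ω l) - N)) + Real.exp (-(lam * (∑ l, g q (ω l) - N))) ≤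
      2 * (Fintype.card P) * Real.exp (N * (lam ^ 2 * S)) := by
    refine le_trans ?_ (hω.trans (mul_le_mul_of_nonneg_left hbound (by positivity)))
    have := Finset.single_le_sum (f := fun q => Real.exp (lam * ∑ l, (g q (ω l) - 1)) + Real.exp (-(lam * ∑ l, (g q (ω l) - 1))))
      (fun q _ => (add_pos (Real.exp_pos _) (Real.exp_pos _)).le) (Finset.mem_univ q)
    simp only [hsum] at this ⊢
    exact this
  have hlog : ∀ y : ℝ, Real.exp y ≤ 2 * (Fintype.card P) * Real.exp (N * (lam ^ 2 * S)) →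
      y ≤ Real.log (2 * Fintype.card P) + N * (lam ^ 2 * S) := by
    intro y hy
    have h2 := Real.log_le_log (Real.exp_pos _) hy
    rw [Real.log_exp, Real.log_mul (by positivity) (Real.exp_pos _).ne', Real.log_exp] at h2
    exact h2
  have hu := hlog _ (le_trans (le_add_of_nonneg_right (Real.exp_pos _).le) hsingle)
  have hl := hlog _ (le_trans (le_add_of_nonneg_left (Real.exp_pos _).le) hsingle)
  have hA : Real.log (2 * Fintype.card P) ≤ lam * (ε * N / 2) := by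
    rw [div_le_iff₀ (by positivity)] at hN
    rw [hlam]
    have : ε / (2 * S) * (ε * N / 2) = N * ε ^ 2 / (4 * S) := by field_simp; ring
    rw [this, le_div_iff₀ (by positivity)]
    linarith
  have hB : (N:ℝ) * (lam ^ 2 * S) = lam * (ε * N / 2) := by
    have : lam ^ 2 * S = lam * (ε / 2) := by rw [sq, mul_assoc, hlS]
    rw [this]; ring
  rw [hB] at hu hl
  rw [abs_le]
  constructor
  · have : lam * (-(∑ l, g q (ω l) - N)) ≤ lam * (ε * N) := by
      linarith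
    have := le_of_mul_le_mul_left this hlampos
    linarith
  · have : lam * (∑ l, g q (ω l) - N) ≤ lam * (ε * N) := by
      linarith
    exact le_of_mul_le_mul_left this hlampos

end Vale.Agent.P249
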