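import Mathlib
import Vale.Agent.P249.Energy
import Vale.Agent.P249.Sampling

set_option linter.unusedVariables false
set_option linter.unusedSectionVars false

open Finset MeasureTheory

namespace Vale.Agent.P249

variable {Ω : Type*} [MeasurableSpace Ω] {μ : Measure Ω}

theorem norm_fact (p : ℝ) (hp : 1 ≤ p) (y z : Lp ℝ (ENNReal.ofReal p) μ) :
    Integrable (fun ω => |y ω - z ω| ^ p) μ ∧ ∫ ω, |y ω - z ω| ^ p ∂μ = ‖y - z‖ ^ p := by
  have hp0 : 0 < p := by linarith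
  have h0 : ENNReal.ofReal p ≠ 0 := by simp [hp0]
  have htop : ENNReal.ofReal p ≠ ⊤ := ENNReal.ofReal_ne_top
  have htr : (ENNReal.ofReal p).toReal = p := ENNReal.toReal_ofReal hp0.le
  have hmem := Lp.memLp (y - z)
  have hcongr : (fun ω => ‖(y - z : Lp ℝ (ENNReal.ofReal p) μ) ω‖ ^ p) =ᵐ[μ] fun ω => |y ω - z ω| ^ p := by
    filter_upwards [Lp.coeFn_sub y z] with ω hω
    rw [hω, Pi.sub_apply, Real.norm_eq_abs]
  have hint : Integrable (fun ω => ‖(y - z : Lp ℝ (ENNReal.ofReal p) μ) ω‖ ^ p) μ := by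
    have := hmem.integrable_norm_rpow h0 htop
    rwa [htr] at this
  refine ⟨hint.congr hcongr, ?_⟩
  rw [← integral_congr_ae hcongr]
  have hnn : 0 ≤ ∫ ω, ‖(y - z : Lp ℝ (ENNReal.ofReal p) μ) ω‖ ^ p ∂μ :=
    integral_nonneg fun ω => Real.rpow_nonneg (norm_nonneg _) _
  rw [Lp.norm_def, hmem.eLpNorm_eq_integral_rpow_norm h0 htop, htr,
    ENNReal.toReal_ofReal (Real.rpow_nonneg hnn _), ← Real.rpow_mul hnn, inv_mul_cancel₀ hp0.ne', Real.rpow_one]

theorem embed (p : ℝ) (hp : 1 ≤ p) {ι : Type*} [Fintype ι] [DecidableEq ι]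
    (x : ι → Lp ℝ (ENNReal.ofReal p) μ) (hx : Function.Injective x) (hcard : 2 ≤ Fintype.card ι)
    (m : ℕ) (hm : 1 ≤ m) (hn : Fintype.card ι < 2 ^ m) (ε : ℝ) (hε : 0 < ε) (hε1 : ε ≤ 1) (N : ℕ)
    (hN : 4 * ((2 * m : ℝ) ^ (p - 1) * (2 * Fintype.card ι)) * Real.log (2 * (Fintype.card ι : ℝ) ^ 2) / ε ^ 2 ≤ N) :
    ∃ f : ι → Fin N → ℝ, ∀ i j, (1 - ε) * ‖x i - x j‖ ^ p ≤ ∑ l, |f i l - f j l| ^ p ∧
      ∑ l, |f i l - f j l| ^ p ≤ (1 + ε) * ‖x i - x j‖ ^ p := by
  have : Fact (1 ≤ ENNReal.ofReal p) := ⟨by rw [← ENNReal.ofReal_one]; exact ENNReal.ofReal_le_ofReal hp⟩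
  have hp0 : 0 < p := by linarith
  have hdpos : ∀ u v, u ≠ v → 0 < ‖x u - x v‖ := by
    intro u v huv
    rw [norm_pos_iff, sub_ne_zero]
    exact fun h => huv (hx h)
  obtain ⟨E, hE1, hE2, hE3⟩ := energy (fun u v => ‖x u - x v‖) (fun u v => norm_sub_rev _ _) hdpos p hp m hm hn
  -- notation
  set K : ℝ := (2 * m : ℝ) ^ (p - 1) with hK
  have hm1 : (1:ℝ) ≤ m := by exact_mod_cast hm
  have hK1 : 1 ≤ K := by
    rw [hK]
    apply Real.one_le_rpow _ (by linarith)
    linarith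
  let r : ι → ι → Ω → ℝ := fun u v ω => |x u ω - x v ω| ^ p / ‖x u - x v‖ ^ p
  have hr0 : ∀ u v ω, 0 ≤ r u v ω := fun u v ω =>
    div_nonneg (Real.rpow_nonneg (abs_nonneg _) _) (Real.rpow_nonneg (norm_nonneg _) _)
  have hrint : ∀ u v, Integrable (r u v) μ := fun u v => (norm_fact p hp (x u) (x v)).1.div_const _
  have hrI : ∀ u v, u ≠ v → ∫ ω, r u v ω ∂μ = 1 := by
    intro u v huv
    have h1 : ∫ ω, r u v ω ∂μ = (∫ ω, |x u ω - x v ω| ^ p ∂μ) / ‖x u - x v‖ ^ p := integral_div _ _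
    rw [h1, (norm_fact p hp (x u) (x v)).2]
    exact div_self (Real.rpow_pos_of_pos (hdpos u v huv) p).ne'
  have hmeas : ∀ u, Measurable (fun ω => x u ω) := fun u => (Lp.stronglyMeasurable (x u)).measurable
  have hrmeas : ∀ u v, Measurable (r u v) := by
    intro u v
    have h1 : Measurable fun ω => |x u ω - x v ω| := (measurable_norm.comp ((hmeas u).sub (hmeas v)))
    exact (h1.pow_const p).div_const _
  let σ : Ω → ℝ := fun ω => ∑ e ∈ E, r e.1 e.2 ω
  have hσ0 : ∀ ω, 0 ≤ σ ω := fun ω => Finset.sum_nonneg fun e _ => hr0 _ _ _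
  have hσint : Integrable σ μ := integrable_finsetSum _ fun e _ => hrint _ _
  have hσI : ∫ ω, σ ω ∂μ = E.card := by
    have h1 : ∫ ω, σ ω ∂μ = ∑ e ∈ E, ∫ ω, r e.1 e.2 ω ∂μ := integral_finsetSum _ fun e _ => hrint _ _
    rw [h1, Finset.sum_congr rfl fun e he => hrI e.1 e.2 (hE1 e he)]
    simp
  have hσmeas : Measurable σ := Finset.measurable_sum _ fun e _ => hrmeas _ _
  have hrσ : ∀ u v, u ≠ v → ∀ ω, r u v ω ≤ K * σ ω := by
    intro u v huv ω
    have h1 := hE3 (fun i => x i ω) u v huv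
    have hpp := Real.rpow_pos_of_pos (hdpos u v huv) p
    show |x u ω - x v ω| ^ p / ‖x u - x v‖ ^ p ≤ K * σ ω
    rw [div_le_iff₀ hpp]
    refine h1.trans (le_of_eq ?_)
    show K * (‖x u - x v‖ ^ p * σ ω) = K * σ ω * ‖x u - x v‖ ^ p
    ring
  obtain ⟨u0, v0, huv0⟩ := Fintype.exists_pair_of_one_lt_card (α := ι) (by omega)
  have hEcard : 1 ≤ E.card := by
    by_contra hc
    have : E.card = 0 := by omega
    rw [this] at hσI
    have h1 : ∫ ω, r u0 v0 ω ∂μ ≤ ∫ ω, K * σ ω ∂μ :=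
      integral_mono (hrint _ _) (hσint.const_mul _) (hrσ u0 v0 huv0)
    rw [hrI u0 v0 huv0, integral_const_mul, hσI] at h1
    simp at h1
    linarith
  have hEr : (1:ℝ) ≤ E.card := by exact_mod_cast hEcard
  have hEpos : (0:ℝ) < E.card := by linarith
  -- the probability measure
  let dens : Ω → ENNReal := fun ω => ENNReal.ofReal (σ ω / E.card)
  let ν : Measure Ω := μ.withDensity dens
  have hdmeas : Measurable dens := (hσmeas.div_const _).ennreal_ofReal
  have hprob : IsProbabilityMeasure ν := by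
    constructor
    rw [withDensity_apply _ MeasurableSet.univ, Measure.restrict_univ]
    rw [← ofReal_integral_eq_lintegral_ofReal (hσint.div_const _) (Filter.Eventually.of_forall fun ω => div_nonneg (hσ0 ω) hEpos.le)]
    rw [integral_div, hσI, div_self hEpos.ne', ENNReal.ofReal_one]
  let P := {z : ι × ι // z.1 ≠ z.2}
  let g : P → Ω → ℝ := fun q ω => E.card * r q.1.1 q.1.2 ω / σ ω
  have hg0 : ∀ q ω, 0 ≤ g q ω := fun q ω => div_nonneg (mul_nonneg hEpos.le (hr0 _ _ _)) (hσ0 ω)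
  set S : ℝ := K * E.card with hS
  have hS1 : 1 ≤ S := by nlinarith
  have hg1 : ∀ q ω, g q ω ≤ S := by
    intro q ω
    rcases (hσ0 ω).eq_or_lt with h | h
    · show (E.card : ℝ) * r q.1.1 q.1.2 ω / σ ω ≤ S
      rw [← h, div_zero]; linarith
    · show (E.card : ℝ) * r q.1.1 q.1.2 ω / σ ω ≤ S
      rw [div_le_iff₀ h]
      have := hrσ q.1.1 q.1.2 q.2 ω
      have h2 := mul_le_mul_of_nonneg_left this hEpos.le
      rw [hS]; linarith
  have hgmeas : ∀ q, Measurable (g q) := fun q => (measurable_const.mul (hrmeas _ _)).div hσmeas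
  have hgint : ∀ q, Integrable (g q) ν := by
    intro q
    apply Integrable.of_bound (hgmeas q).aestronglyMeasurable S
    exact Filter.Eventually.of_forall fun ω => by rw [Real.norm_eq_abs, abs_of_nonneg (hg0 q ω)]; exact hg1 q ω
  have hgI : ∀ q, ∫ ω, g q ω ∂ν = 1 := by
    intro q
    rw [integral_withDensity_eq_integral_toReal_smul₀ hdmeas.aemeasurable (Filter.Eventually.of_forall fun ω => ENNReal.ofReal_lt_top)]
    rw [← hrI q.1.1 q.1.2 q.2]
    apply integral_congr_ae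
    refine Filter.Eventually.of_forall fun ω => ?_
    show (ENNReal.ofReal (σ ω / E.card)).toReal • (E.card * r q.1.1 q.1.2 ω / σ ω) = r q.1.1 q.1.2 ω
    rw [ENNReal.toReal_ofReal (div_nonneg (hσ0 ω) hEpos.le), smul_eq_mul]
    rcases (hσ0 ω).eq_or_lt with h | h
    · have h1 := hrσ q.1.1 q.1.2 q.2 ω
      rw [← h, mul_zero] at h1
      have h2 := le_antisymm h1 (hr0 _ _ _)
      rw [h2]; simp
    · field_simp
  have hPc : Fintype.card P ≤ Fintype.card ι ^ 2 := by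
    refine (Fintype.card_subtype_le _).trans ?_
    rw [Fintype.card_prod, sq]
  have hP1 : 1 ≤ Fintype.card P := Fintype.card_pos_iff.2 ⟨⟨(u0, v0), huv0⟩⟩
  have hP1r : (1:ℝ) ≤ Fintype.card P := by exact_mod_cast hP1
  have hPcr : (Fintype.card P : ℝ) ≤ (Fintype.card ι : ℝ) ^ 2 := by exact_mod_cast hPc
  have hE2r : (E.card : ℝ) ≤ 2 * Fintype.card ι := by exact_mod_cast hE2
  have hlog0 : 0 < Real.log (2 * Fintype.card P) := Real.log_pos (by linarith)
  have hlogle : Real.log (2 * Fintype.card P) ≤ Real.log (2 * (Fintype.card ι : ℝ) ^ 2) :=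
    Real.log_le_log (by linarith) (by linarith)
  have hNS : 4 * S * Real.log (2 * Fintype.card P) / ε ^ 2 ≤ N := by
    refine le_trans ?_ hN
    apply div_le_div_of_nonneg_right _ (by positivity)
    apply mul_le_mul _ hlogle hlog0.le (by positivity)
    rw [hS]
    have := mul_le_mul_of_nonneg_left hE2r (by linarith : (0:ℝ) ≤ K)
    linarith
  have hNpos : (0:ℝ) < N := by
    refine lt_of_lt_of_le ?_ hNS
    have : 0 < S := by linarith
    positivity
  obtain ⟨om, hom⟩ := sampling ν g S hS1 hg0 hg1 hgint hgI ε hε hε1 N hP1 hNS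
  refine ⟨fun i l => x i (om l) * (E.card / (N * σ (om l))) ^ (1 / p), fun i j => ?_⟩
  by_cases hij : i = j
  · subst hij
    simp [Real.zero_rpow hp0.ne']
  have hterm : ∀ l, |x i (om l) * (E.card / (N * σ (om l))) ^ (1 / p) - x j (om l) * (E.card / (N * σ (om l))) ^ (1 / p)| ^ p
      = ‖x i - x j‖ ^ p / N * g ⟨(i, j), hij⟩ (om l) := by
    intro l
    have hnn : 0 ≤ (E.card : ℝ) / (N * σ (om l)) := div_nonneg hEpos.le (mul_nonneg hNpos.le (hσ0 _))
    rw [← sub_mul, abs_mul, Real.mul_rpow (abs_nonneg _) (abs_nonneg _), abs_of_nonneg (Real.rpow_nonneg hnn _),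
      ← Real.rpow_mul hnn, one_div_mul_cancel hp0.ne', Real.rpow_one]
    show _ = ‖x i - x j‖ ^ p / N * (E.card * (|x i (om l) - x j (om l)| ^ p / ‖x i - x j‖ ^ p) / σ (om l))
    have hd := (Real.rpow_pos_of_pos (hdpos i j hij) p).ne'
    rcases (hσ0 (om l)).eq_or_lt with h | h
    · rw [← h]; simp
    · field_simp
  have hsum : ∑ l, |x i (om l) * (E.card / (N * σ (om l))) ^ (1 / p) - x j (om l) * (E.card / (N * σ (om l))) ^ (1 / p)| ^ p
      = ‖x i - x j‖ ^ p / N * ∑ l, g ⟨(i, j), hij⟩ (om l) := by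
    rw [Finset.mul_sum]
    exact Finset.sum_congr rfl fun l _ => hterm l
  have hq := abs_le.1 (hom ⟨(i, j), hij⟩)
  have hdn : 0 ≤ ‖x i - x j‖ ^ p / N := div_nonneg (Real.rpow_nonneg (norm_nonneg _) _) hNpos.le
  constructor
  · show _ ≤ ∑ l, |x i (om l) * (E.card / (N * σ (om l))) ^ (1 / p) - x j (om l) * (E.card / (N * σ (om l))) ^ (1 / p)| ^ p
    rw [hsum]
    have h1 : (1 - ε) * N ≤ ∑ l, g ⟨(i, j), hij⟩ (om l) := by linarith [hq.1]
    have h2 := mul_le_mul_of_nonneg_left h1 hdn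
    refine le_trans (le_of_eq ?_) h2
    field_simp
  · show ∑ l, |x i (om l) * (E.card / (N * σ (om l))) ^ (1 / p) - x j (om l) * (E.card / (N * σ (om l))) ^ (1 / p)| ^ p ≤ _
    rw [hsum]
    have h1 : ∑ l, g ⟨(i, j), hij⟩ (om l) ≤ (1 + ε) * N := by linarith [hq.2]
    have h2 := mul_le_mul_of_nonneg_left h1 hdn
    refine le_trans h2 (le_of_eq ?_)
    field_simp

end Vale.Agent.P249
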