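import Mathlib
import Vale.Agent.P249.Chain

set_option linter.unusedVariables false
set_option linter.unusedSectionVars false

open Finset

namespace Vale.Agent.P249

variable {ι : Type*} [DecidableEq ι] [Fintype ι]

/-- the base of the neighbourhood sizes -/
noncomputable def base (p : ℝ) : ℕ := 2 * 16 ^ ⌈p⌉₊

/-- the constant of the energy inequality -/
noncomputable def Cp (p : ℝ) : ℝ := (128 * (base p : ℝ)) ^ p

theorem base_ge (p : ℝ) : 2 * (16:ℝ) ^ p ≤ base p := by
  unfold base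
  push_cast
  apply mul_le_mul_of_nonneg_left _ (by norm_num)
  rw [← Real.rpow_natCast]
  exact Real.rpow_le_rpow_of_exponent_le (by norm_num) (Nat.le_ceil p)

theorem base_two (p : ℝ) : 2 ≤ base p := by
  unfold base
  have : 1 ≤ 16 ^ ⌈p⌉₊ := Nat.one_le_pow _ _ (by norm_num)
  omega

theorem energy2 (d : ι → ι → ℝ) (hsymm : ∀ a b, d a b = d b a) (htri : ∀ a b c, d a c ≤ d a b + d b c)
    (hself : ∀ a, d a a = 0) (hpos : ∀ a b, a ≠ b → 0 < d a b) (p : ℝ) (hp : 1 ≤ p) (hcard : 1 ≤ Fintype.card ι) :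
    ∃ wt : ι → ι → ℝ, (∀ a b, 0 ≤ wt a b) ∧ ∑ a, ∑ b, wt a b ≤ Fintype.card ι ∧
      ∀ (g : ι → ℝ) (u v : ι), u ≠ v →
        |g u - g v| ^ p ≤ Cp p * (d u v ^ p * ∑ a, ∑ b, wt a b * (|g a - g b| / d a b) ^ p) := by
  have hp0 : 0 < p := by linarith
  set K := base p with hKdef
  have hK2 : 2 ≤ K := base_two p
  have hK : 2 * (16:ℝ) ^ p ≤ K := base_ge p
  have hKr : (0:ℝ) < K := by exact_mod_cast (by omega : 0 < K)
  have hd0 : ∀ a b, 0 ≤ d a b := by
    intro a b
    by_cases h : a = b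
    · rw [h, hself]
    · exact (hpos a b h).le
  choose NN hNNc hNN using fun (i : ℕ) (a : ι) => exists_nn (d a) (min (K ^ i) (Fintype.card ι)) (min_le_right _ _)
  have hkpos : ∀ i, 0 < min (K ^ i) (Fintype.card ι) := fun i => lt_min (pow_pos (by omega) i) hcard
  set n := Fintype.card ι with hn
  let wt : ι → ι → ℝ := fun a b => ∑ i ∈ range (n + 1), (1 / 2) ^ (i + 1) *
    (if b ∈ NN (i + 1) a then 1 / ((min (K ^ (i + 1)) n : ℕ) : ℝ) else 0)
  have hwt0 : ∀ a b, 0 ≤ wt a b := by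
    intro a b
    apply Finset.sum_nonneg
    intro i _
    apply mul_nonneg (by positivity)
    split_ifs <;> positivity
  -- averages with the weights
  have hsum : ∀ (a : ι) (h : ι → ℝ), ∑ b, wt a b * h b = ∑ i ∈ range (n + 1), (1 / 2 : ℝ) ^ (i + 1) *
      ((∑ b ∈ NN (i + 1) a, h b) / ((min (K ^ (i + 1)) n : ℕ) : ℝ)) := by
    intro a h
    have e1 : ∀ b ∈ (univ : Finset ι), wt a b * h b = ∑ i ∈ range (n + 1), (1 / 2 : ℝ) ^ (i + 1) *
      ((if b ∈ NN (i + 1) a then h b else 0) / ((min (K ^ (i + 1)) n : ℕ) : ℝ)) := by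
      intro b _
      simp only [wt]
      rw [Finset.sum_mul]
      apply Finset.sum_congr rfl
      intro i _
      split_ifs
      · ring
      · simp
    rw [Finset.sum_congr rfl e1, Finset.sum_comm]
    apply Finset.sum_congr rfl
    intro i _
    rw [← Finset.mul_sum, ← Finset.sum_div, ← Finset.sum_filter]
    congr 3
    ext b; simp
  refine ⟨wt, hwt0, ?_, ?_⟩
  · have h1 : ∀ a ∈ (univ : Finset ι), ∑ b, wt a b ≤ 1 := by
      intro a _
      have h2 := hsum a (fun _ => 1)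
      simp only [mul_one] at h2
      rw [h2]
      have h3 : ∀ i ∈ range (n + 1), (1 / 2 : ℝ) ^ (i + 1) * ((∑ b ∈ NN (i + 1) a, (1:ℝ)) / ((min (K ^ (i + 1)) n : ℕ) : ℝ)) = (1 / 2) ^ (i + 1) := by
        intro i _
        rw [Finset.sum_const, hNNc, nsmul_eq_mul, mul_one, div_self, mul_one]
        have := hkpos (i + 1)
        exact_mod_cast this.ne'
      rw [Finset.sum_congr rfl h3]
      have h4 : ∀ m : ℕ, ∑ i ∈ range m, (1 / 2 : ℝ) ^ (i + 1) = 1 - (1 / 2) ^ m := by
        intro m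
        induction m with
        | zero => simp
        | succ m ih => rw [Finset.sum_range_succ, ih, pow_succ]; ring
      rw [h4]
      have : (0:ℝ) < (1 / 2) ^ (n + 1) := by positivity
      linarith
    calc ∑ a, ∑ b, wt a b ≤ ∑ a : ι, (1:ℝ) := Finset.sum_le_sum h1
      _ = n := by rw [Finset.sum_const, Finset.card_univ, nsmul_eq_mul, mul_one]
  · intro g u v huv
    set δ := d u v with hδ
    have hδpos : 0 < δ := hpos u v huv
    set En : ℝ := ∑ a, ∑ b, wt a b * (|g a - g b| / d a b) ^ p with hEn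
    have hrn : ∀ a b, 0 ≤ (|g a - g b| / d a b) ^ p := fun a b => Real.rpow_nonneg (div_nonneg (abs_nonneg _) (hd0 _ _)) _
    have hEnn : 0 ≤ En := Finset.sum_nonneg fun a _ => Finset.sum_nonneg fun b _ => mul_nonneg (hwt0 _ _) (hrn _ _)
    have hEn2 : En = ∑ i ∈ range (n + 1), (1 / 2 : ℝ) ^ (i + 1) * ∑ a, (∑ b ∈ NN (i + 1) a, (|g a - g b| / d a b) ^ p) / ((min (K ^ (i + 1)) n : ℕ) : ℝ) := by
      rw [hEn, Finset.sum_congr rfl fun a _ => hsum a (fun b => (|g a - g b| / d a b) ^ p), Finset.sum_comm]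
      apply Finset.sum_congr rfl
      intro i _
      rw [Finset.mul_sum]
    -- the scale J
    have hex : ∃ j : ℕ, (univ.filter fun x => d u x ≤ 8 ^ (j + 1) * δ).card < K ^ (j + 1) := by
      refine ⟨n, ?_⟩
      refine lt_of_le_of_lt (Finset.card_le_univ _) ?_
      have h1 : n + 1 < 2 ^ (n + 1) := Nat.lt_two_pow_self
      have h2 : 2 ^ (n + 1) ≤ K ^ (n + 1) := Nat.pow_le_pow_left hK2 _
      omega
    classical
    let J := Nat.find hex
    have hJ2 : (univ.filter fun x => d u x ≤ 8 ^ (J + 1) * δ).card < K ^ (J + 1) := Nat.find_spec hex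
    have hJ1 : ∀ j ≤ J, K ^ j ≤ (univ.filter fun x => d u x ≤ 8 ^ j * δ).card := by
      intro j hj
      cases j with
      | zero =>
        rw [pow_zero]
        apply Finset.card_pos.2
        exact ⟨u, by rw [Finset.mem_filter, hself]; exact ⟨mem_univ _, by positivity⟩⟩
      | succ j =>
        have := Nat.find_min hex (m := j) (by omega)
        exact not_lt.1 this
    have hJn : J ≤ n := by
      have h1 := (hJ1 J le_rfl).trans (Finset.card_le_univ _)
      have h2 : 2 ^ J ≤ K ^ J := Nat.pow_le_pow_left hK2 _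
      have h3 : J < 2 ^ J := Nat.lt_two_pow_self
      omega
    have hEni : ∀ i ≤ J, ∑ a, (∑ b ∈ NN (i + 1) a, (|g a - g b| / d a b) ^ p) / ((min (K ^ (i + 1)) n : ℕ) : ℝ) ≤ 2 ^ (i + 1) * En := by
      intro i hi
      have h1 : (1 / 2 : ℝ) ^ (i + 1) * ∑ a, (∑ b ∈ NN (i + 1) a, (|g a - g b| / d a b) ^ p) / ((min (K ^ (i + 1)) n : ℕ) : ℝ) ≤ En := by
        rw [hEn2]
        apply Finset.single_le_sum (f := fun i => (1 / 2 : ℝ) ^ (i + 1) * ∑ a, (∑ b ∈ NN (i + 1) a, (|g a - g b| / d a b) ^ p) / ((min (K ^ (i + 1)) n : ℕ) : ℝ)) _ (Finset.mem_range.2 (by omega))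
        intro j _
        apply mul_nonneg (by positivity)
        exact Finset.sum_nonneg fun a _ => div_nonneg (Finset.sum_nonneg fun b _ => hrn _ _) (Nat.cast_nonneg _)
      calc _ = 2 ^ (i + 1) * ((1 / 2 : ℝ) ^ (i + 1) * ∑ a, (∑ b ∈ NN (i + 1) a, (|g a - g b| / d a b) ^ p) / ((min (K ^ (i + 1)) n : ℕ) : ℝ)) := by
            rw [← mul_assoc, ← mul_pow]; norm_num
        _ ≤ _ := mul_le_mul_of_nonneg_left h1 (by positivity)
    have c1 := chain d hsymm htri hself hpos p hp K (by omega) hK NN hNNc hNN u δ hδpos J hJ1 hJ2 g En hEni u (by rw [hself]; exact hδpos.le)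
    have c2 := chain d hsymm htri hself hpos p hp K (by omega) hK NN hNNc hNN u δ hδpos J hJ1 hJ2 g En hEni v le_rfl
    set B : Finset ι := univ.filter (fun z => d u z ≤ 8 ^ J * δ) with hB
    have hBc : (K:ℝ) ^ J ≤ B.card := by
      have h := hJ1 J le_rfl
      calc (K:ℝ) ^ J = ((K ^ J : ℕ) : ℝ) := by push_cast; rfl
        _ ≤ _ := Nat.cast_le.2 h
    have hlow : (B.card : ℝ) * |g u - g v| ≤ ∑ z ∈ B, |g u - g z| + ∑ z ∈ B, |g v - g z| := by
      rw [← Finset.sum_add_distrib, ← nsmul_eq_mul, ← Finset.sum_const]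
      apply Finset.sum_le_sum
      intro z _
      have := abs_sub_le (g u) (g z) (g v)
      rw [abs_sub_comm (g z) (g v)] at this
      exact this
    have hmain : |g u - g v| ≤ 128 * K * (En ^ (1 / p) * δ) := by
      have hKJ : (0:ℝ) < (K:ℝ) ^ (J + 1) := by positivity
      have h1 : (K:ℝ) ^ J * |g u - g v| ≤ ∑ z ∈ B, |g u - g z| + ∑ z ∈ B, |g v - g z| :=
        (mul_le_mul_of_nonneg_right hBc (abs_nonneg _)).trans hlow
      rw [inv_mul_le_iff₀ hKJ] at c1 c2
      have h2 : (K:ℝ) ^ J * |g u - g v| ≤ (K:ℝ) ^ J * (128 * K * (En ^ (1 / p) * δ)) := by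
        refine h1.trans ((add_le_add c1 c2).trans (le_of_eq ?_))
        rw [pow_succ]; ring
      exact le_of_mul_le_mul_left h2 (by positivity)
    calc |g u - g v| ^ p ≤ (128 * K * (En ^ (1 / p) * δ)) ^ p := Real.rpow_le_rpow (abs_nonneg _) hmain hp0.le
      _ = (128 * (K:ℝ)) ^ p * (δ ^ p * En) := by
          rw [Real.mul_rpow (by positivity) (by positivity), Real.mul_rpow (Real.rpow_nonneg hEnn _) hδpos.le,
            ← Real.rpow_mul hEnn, one_div_mul_cancel hp0.ne', Real.rpow_one, mul_comm En]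
      _ = _ := rfl

end Vale.Agent.P249
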