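import Mathlib
import Vale.Agent.P249.Energy2
import Vale.Agent.P249.Sampling

set_option linter.unusedVariables false
set_option linter.unusedSectionVars false

open Finset MeasureTheory

namespace Vale.Agent.P249

variable {Ω : Type*} [MeasurableSpace Ω] {μ : Measure Ω}

theorem norm_fact2 (p : ℝ) (hp : 1 ≤ p) (y z : Lp ℝ (ENNReal.ofReal p) μ) :
    Integrable (fun ω => |y ω - z ω| ^ p) μ ∧ ∫ ω, |y ω - z ω| ^ p ∂μ = ‖y - z‖ ^ p := by
  have hp0 : 0 < p := by linarith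
  have h0 : ENNReal.ofReal p ≠ 0 := by simp [hp0]
  have htop : ENNReal.ofReal p ≠ ⊤ := ENNReal.ofReal_ne_top
  have htr : (ENNReal.ofReal p).toReal = p := ENNReal.toReal_ofReal hp0.le
  have hmem := Lp.memLp (y - z)
  have hcongr : (fun ω => ‖(y - z : Lp ℝ (ENNReal.ofReal p) μ) ω‖ ^ p) =ᵐ[μ] fun ω => |y ω - z ω| ^ p := by
    filter_upwards [Lp.coeFn_sub y z] with ω hω
    rw [hω, Pi.sub_apply, Real.norm_eq_abs]
  have hint : Integrable (fun ω => ‖(y - z : Lp ℝ (ENNReal.ofReal p) μ) ω‖ ^ p) μ := by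
    have := hmem.integrable_norm_rpow h0 htop
    rwa [htr] at this
  refine ⟨hint.congr hcongr, ?_⟩
  rw [← integral_congr_ae hcongr]
  have hnn : 0 ≤ ∫ ω, ‖(y - z : Lp ℝ (ENNReal.ofReal p) μ) ω‖ ^ p ∂μ :=
    integral_nonneg fun ω => Real.rpow_nonneg (norm_nonneg _) _
  rw [Lp.norm_def, hmem.eLpNorm_eq_integral_rpow_norm h0 htop, htr,
    ENNReal.toReal_ofReal (Real.rpow_nonneg hnn _), ← Real.rpow_mul hnn, inv_mul_cancel₀ hp0.ne', Real.rpow_one]

theorem embed2 (p : ℝ) (hp : 1 ≤ p) {ι : Type*} [Fintype ι] [DecidableEq ι]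
    (x : ι → Lp ℝ (ENNReal.ofReal p) μ) (hx : Function.Injective x) (hcard : 2 ≤ Fintype.card ι)
    (ε : ℝ) (hε : 0 < ε) (hε1 : ε ≤ 1) (N : ℕ)
    (hN : 4 * (Cp p * Fintype.card ι) * Real.log (2 * (Fintype.card ι : ℝ) ^ 2) / ε ^ 2 ≤ N) :
    ∃ f : ι → Fin N → ℝ, ∀ i j, (1 - ε) * ‖x i - x j‖ ^ p ≤ ∑ l, |f i l - f j l| ^ p ∧
      ∑ l, |f i l - f j l| ^ p ≤ (1 + ε) * ‖x i - x j‖ ^ p := by
  have : Fact (1 ≤ ENNReal.ofReal p) := ⟨by rw [← ENNReal.ofReal_one]; exact ENNReal.ofReal_le_ofReal hp⟩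
  have hp0 : 0 < p := by linarith
  have hdpos : ∀ u v, u ≠ v → 0 < ‖x u - x v‖ := by
    intro u v huv
    rw [norm_pos_iff, sub_ne_zero]
    exact fun h => huv (hx h)
  obtain ⟨wt, hw0, hwS, hE3⟩ := energy2 (fun u v => ‖x u - x v‖) (fun u v => norm_sub_rev _ _)
    (fun a b c => norm_sub_le_norm_sub_add_norm_sub _ _ _) (fun a => by simp) hdpos p hp (by omega)
  set K : ℝ := Cp p with hK
  have hK0 : 0 < K := by
    rw [hK]; unfold Cp
    have : (0:ℝ) < base p := by exact_mod_cast (by have := base_two p; omega : 0 < base p)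
    positivity
  let r : ι → ι → Ω → ℝ := fun u v ω => |x u ω - x v ω| ^ p / ‖x u - x v‖ ^ p
  have hr0 : ∀ u v ω, 0 ≤ r u v ω := fun u v ω =>
    div_nonneg (Real.rpow_nonneg (abs_nonneg _) _) (Real.rpow_nonneg (norm_nonneg _) _)
  have hrint : ∀ u v, Integrable (r u v) μ := fun u v => (norm_fact2 p hp (x u) (x v)).1.div_const _
  have hrI' : ∀ u v, ∫ ω, r u v ω ∂μ = ‖x u - x v‖ ^ p / ‖x u - x v‖ ^ p := by
    intro u v
    have h1 : ∫ ω, r u v ω ∂μ = (∫ ω, |x u ω - x v ω| ^ p ∂μ) / ‖x u - x v‖ ^ p := integral_div _ _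
    rw [h1, (norm_fact2 p hp (x u) (x v)).2]
  have hrI : ∀ u v, u ≠ v → ∫ ω, r u v ω ∂μ = 1 := by
    intro u v huv
    rw [hrI']
    exact div_self (Real.rpow_pos_of_pos (hdpos u v huv) p).ne'
  have hrIle : ∀ u v, ∫ ω, r u v ω ∂μ ≤ 1 := by
    intro u v
    rw [hrI']; exact div_self_le_one _
  have hmeas : ∀ u, Measurable (fun ω => x u ω) := fun u => (Lp.stronglyMeasurable (x u)).measurable
  have hrmeas : ∀ u v, Measurable (r u v) := by
    intro u v
    have h1 : Measurable fun ω => |x u ω - x v ω| := (measurable_norm.comp ((hmeas u).sub (hmeas v)))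
    exact (h1.pow_const p).div_const _
  let σ : Ω → ℝ := fun ω => ∑ a, ∑ b, wt a b * r a b ω
  have hσ0 : ∀ ω, 0 ≤ σ ω := fun ω => Finset.sum_nonneg fun a _ => Finset.sum_nonneg fun b _ => mul_nonneg (hw0 _ _) (hr0 _ _ _)
  have hσint1 : ∀ a, Integrable (fun ω => ∑ b, wt a b * r a b ω) μ := fun a => integrable_finsetSum _ fun b _ => (hrint _ _).const_mul _
  have hσint : Integrable σ μ := integrable_finsetSum _ fun a _ => hσint1 a
  set m0 : ℝ := ∫ ω, σ ω ∂μ with hm0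
  have hm0le : m0 ≤ Fintype.card ι := by
    have h1 : ∫ ω, σ ω ∂μ = ∑ a, ∫ ω, ∑ b, wt a b * r a b ω ∂μ := integral_finsetSum _ fun a _ => hσint1 a
    rw [hm0, h1]
    refine le_trans (Finset.sum_le_sum fun a _ => ?_) hwS
    rw [integral_finsetSum _ fun b _ => (hrint _ _).const_mul _]
    apply Finset.sum_le_sum
    intro b _
    rw [integral_const_mul]
    calc wt a b * ∫ ω, r a b ω ∂μ ≤ wt a b * 1 := mul_le_mul_of_nonneg_left (hrIle _ _) (hw0 _ _)
      _ = _ := mul_one _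
  have hσmeas : Measurable σ := Finset.measurable_sum _ fun a _ => Finset.measurable_sum _ fun b _ => (hrmeas a b).const_mul _
  have hrσ : ∀ u v, u ≠ v → ∀ ω, r u v ω ≤ K * σ ω := by
    intro u v huv ω
    have h1 := hE3 (fun i => x i ω) u v huv
    have hpp := Real.rpow_pos_of_pos (hdpos u v huv) p
    show |x u ω - x v ω| ^ p / ‖x u - x v‖ ^ p ≤ K * σ ω
    rw [div_le_iff₀ hpp]
    refine h1.trans (le_of_eq ?_)
    have h2 : ∑ a, ∑ b, wt a b * (|x a ω - x b ω| / ‖x a - x b‖) ^ p = σ ω := by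
      apply Finset.sum_congr rfl
      intro a _
      apply Finset.sum_congr rfl
      intro b _
      show _ = wt a b * (|x a ω - x b ω| ^ p / ‖x a - x b‖ ^ p)
      rw [Real.div_rpow (abs_nonneg _) (norm_nonneg _)]
    rw [h2]
    ring
  obtain ⟨u0, v0, huv0⟩ := Fintype.exists_pair_of_one_lt_card (α := ι) (by omega)
  have hKm : 1 ≤ K * m0 := by
    have h1 : ∫ ω, r u0 v0 ω ∂μ ≤ ∫ ω, K * σ ω ∂μ :=
      integral_mono (hrint _ _) (hσint.const_mul _) (hrσ u0 v0 huv0)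
    rw [hrI u0 v0 huv0, integral_const_mul] at h1
    exact h1
  have hmpos : 0 < m0 := by
    by_contra hc
    push Not at hc
    nlinarith
  -- the probability measure
  let dens : Ω → ENNReal := fun ω => ENNReal.ofReal (σ ω / m0)
  let ν : Measure Ω := μ.withDensity dens
  have hdmeas : Measurable dens := (hσmeas.div_const _).ennreal_ofReal
  have hprob : IsProbabilityMeasure ν := by
    constructor
    rw [withDensity_apply _ MeasurableSet.univ, Measure.restrict_univ]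
    rw [← ofReal_integral_eq_lintegral_ofReal (hσint.div_const _) (Filter.Eventually.of_forall fun ω => div_nonneg (hσ0 ω) hmpos.le)]
    rw [integral_div, ← hm0, div_self hmpos.ne', ENNReal.ofReal_one]
  let P := {z : ι × ι // z.1 ≠ z.2}
  let g : P → Ω → ℝ := fun q ω => m0 * r q.1.1 q.1.2 ω / σ ω
  have hg0 : ∀ q ω, 0 ≤ g q ω := fun q ω => div_nonneg (mul_nonneg hmpos.le (hr0 _ _ _)) (hσ0 ω)
  set S : ℝ := K * m0 with hS
  have hS1 : 1 ≤ S := hKm
  have hg1 : ∀ q ω, g q ω ≤ S := by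
    intro q ω
    rcases (hσ0 ω).eq_or_lt with h | h
    · show m0 * r q.1.1 q.1.2 ω / σ ω ≤ S
      rw [← h, div_zero]; linarith
    · show m0 * r q.1.1 q.1.2 ω / σ ω ≤ S
      rw [div_le_iff₀ h]
      have := hrσ q.1.1 q.1.2 q.2 ω
      have h2 := mul_le_mul_of_nonneg_left this hmpos.le
      rw [hS]; linarith
  have hgmeas : ∀ q, Measurable (g q) := fun q => (measurable_const.mul (hrmeas _ _)).div hσmeas
  have hgint : ∀ q, Integrable (g q) ν := by
    intro q
    apply Integrable.of_bound (hgmeas q).aestronglyMeasurable S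
    exact Filter.Eventually.of_forall fun ω => by rw [Real.norm_eq_abs, abs_of_nonneg (hg0 q ω)]; exact hg1 q ω
  have hgI : ∀ q, ∫ ω, g q ω ∂ν = 1 := by
    intro q
    rw [integral_withDensity_eq_integral_toReal_smul₀ hdmeas.aemeasurable (Filter.Eventually.of_forall fun ω => ENNReal.ofReal_lt_top)]
    rw [← hrI q.1.1 q.1.2 q.2]
    apply integral_congr_ae
    refine Filter.Eventually.of_forall fun ω => ?_
    show (ENNReal.ofReal (σ ω / m0)).toReal • (m0 * r q.1.1 q.1.2 ω / σ ω) = r q.1.1 q.1.2 ω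
    rw [ENNReal.toReal_ofReal (div_nonneg (hσ0 ω) hmpos.le), smul_eq_mul]
    rcases (hσ0 ω).eq_or_lt with h | h
    · have h1 := hrσ q.1.1 q.1.2 q.2 ω
      rw [← h, mul_zero] at h1
      have h2 := le_antisymm h1 (hr0 _ _ _)
      rw [h2]; simp
    · field_simp
  have hPc : Fintype.card P ≤ Fintype.card ι ^ 2 := by
    refine (Fintype.card_subtype_le _).trans ?_
    rw [Fintype.card_prod, sq]
  have hP1 : 1 ≤ Fintype.card P := Fintype.card_pos_iff.2 ⟨⟨(u0, v0), huv0⟩⟩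
  have hP1r : (1:ℝ) ≤ Fintype.card P := by exact_mod_cast hP1
  have hPcr : (Fintype.card P : ℝ) ≤ (Fintype.card ι : ℝ) ^ 2 := by exact_mod_cast hPc
  have hlog0 : 0 < Real.log (2 * Fintype.card P) := Real.log_pos (by linarith)
  have hlogle : Real.log (2 * Fintype.card P) ≤ Real.log (2 * (Fintype.card ι : ℝ) ^ 2) :=
    Real.log_le_log (by linarith) (by linarith)
  have hNS : 4 * S * Real.log (2 * Fintype.card P) / ε ^ 2 ≤ N := by
    refine le_trans ?_ hN
    apply div_le_div_of_nonneg_right _ (by positivity)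
    apply mul_le_mul _ hlogle hlog0.le (by positivity)
    rw [hS]
    have := mul_le_mul_of_nonneg_left hm0le hK0.le
    linarith
  have hNpos : (0:ℝ) < N := by
    refine lt_of_lt_of_le ?_ hNS
    have : 0 < S := by linarith
    positivity
  obtain ⟨om, hom⟩ := sampling ν g S hS1 hg0 hg1 hgint hgI ε hε hε1 N hP1 hNS
  refine ⟨fun i l => x i (om l) * (m0 / (N * σ (om l))) ^ (1 / p), fun i j => ?_⟩
  by_cases hij : i = j
  · subst hij
    simp [Real.zero_rpow hp0.ne']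
  have hterm : ∀ l, |x i (om l) * (m0 / (N * σ (om l))) ^ (1 / p) - x j (om l) * (m0 / (N * σ (om l))) ^ (1 / p)| ^ p
      = ‖x i - x j‖ ^ p / N * g ⟨(i, j), hij⟩ (om l) := by
    intro l
    have hnn : 0 ≤ m0 / (N * σ (om l)) := div_nonneg hmpos.le (mul_nonneg hNpos.le (hσ0 _))
    rw [← sub_mul, abs_mul, Real.mul_rpow (abs_nonneg _) (abs_nonneg _), abs_of_nonneg (Real.rpow_nonneg hnn _),
      ← Real.rpow_mul hnn, one_div_mul_cancel hp0.ne', Real.rpow_one]
    show _ = ‖x i - x j‖ ^ p / N * (m0 * (|x i (om l) - x j (om l)| ^ p / ‖x i - x j‖ ^ p) / σ (om l))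
    have hd := (Real.rpow_pos_of_pos (hdpos i j hij) p).ne'
    rcases (hσ0 (om l)).eq_or_lt with h | h
    · rw [← h]; simp
    · field_simp
  have hsum : ∑ l, |x i (om l) * (m0 / (N * σ (om l))) ^ (1 / p) - x j (om l) * (m0 / (N * σ (om l))) ^ (1 / p)| ^ p
      = ‖x i - x j‖ ^ p / N * ∑ l, g ⟨(i, j), hij⟩ (om l) := by
    rw [Finset.mul_sum]
    exact Finset.sum_congr rfl fun l _ => hterm l
  have hq := abs_le.1 (hom ⟨(i, j), hij⟩)
  have hdn : 0 ≤ ‖x i - x j‖ ^ p / N := div_nonneg (Real.rpow_nonneg (norm_nonneg _) _) hNpos.le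
  constructor
  · show _ ≤ ∑ l, |x i (om l) * (m0 / (N * σ (om l))) ^ (1 / p) - x j (om l) * (m0 / (N * σ (om l))) ^ (1 / p)| ^ p
    rw [hsum]
    have h1 : (1 - ε) * N ≤ ∑ l, g ⟨(i, j), hij⟩ (om l) := by linarith [hq.1]
    have h2 := mul_le_mul_of_nonneg_left h1 hdn
    refine le_trans (le_of_eq ?_) h2
    field_simp
  · show ∑ l, |x i (om l) * (m0 / (N * σ (om l))) ^ (1 / p) - x j (om l) * (m0 / (N * σ (om l))) ^ (1 / p)| ^ p ≤ _
    rw [hsum]
    have h1 : ∑ l, g ⟨(i, j), hij⟩ (om l) ≤ (1 + ε) * N := by linarith [hq.2]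
    have h2 := mul_le_mul_of_nonneg_left h1 hdn
    refine le_trans h2 (le_of_eq ?_)
    field_simp

end Vale.Agent.P249
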