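import Mathlib

set_option linter.unusedVariables false
set_option linter.unusedSectionVars false

open MeasureTheory ProbabilityTheory Filter Topology
open scoped ENNReal NNReal RealInnerProductSpace

namespace Vale.Agent.P249

abbrev Eu (k : ℕ) := EuclideanSpace ℝ (Fin k)

/-- absolute moment of the standard Gaussian -/
noncomputable def mom (p : ℝ) : ℝ := ∫ t, |t| ^ p ∂(gaussianReal 0 1)

theorem pi_ac (μ ν : Measure ℝ) [SigmaFinite μ] [SigmaFinite ν] (h : μ ≪ ν) :
    ∀ k : ℕ, (Measure.pi fun _ : Fin k => μ) ≪ Measure.pi fun _ : Fin k => ν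
  | 0 => by rw [Measure.pi_of_empty, Measure.pi_of_empty]
  | k + 1 => by
    have h3 := ((measurePreserving_piFinSuccAbove (fun _ : Fin (k + 1) => μ) 0).symm _).map_eq
    have h4 := ((measurePreserving_piFinSuccAbove (fun _ : Fin (k + 1) => ν) 0).symm _).map_eq
    rw [← h3, ← h4]
    exact (h.prod (pi_ac μ ν h k)).map (MeasurableEquiv.measurable _)

theorem std_ac (k : ℕ) : stdGaussian (Eu k) ≪ volume := by
  have h1 := (PiLp.volume_preserving_toLp (Fin k)).map_eq
  rw [← map_pi_eq_stdGaussian, ← h1]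
  exact (pi_ac (gaussianReal 0 1) volume (gaussianReal_absolutelyContinuous 0 one_ne_zero) k).map
    (PiLp.volume_preserving_toLp (Fin k)).measurable

theorem int_norm {E : Type*} [NormedAddCommGroup E] [NormedSpace ℝ E] [MeasurableSpace E] [BorelSpace E]
    [CompleteSpace E] [SecondCountableTopology E] (μ : Measure E) [IsGaussian μ] (p : ℝ) (hp : 0 < p) :
    Integrable (fun z => ‖z‖ ^ p) μ := by
  have h := (IsGaussian.memLp_id μ (ENNReal.ofReal p) ENNReal.ofReal_ne_top).integrable_norm_rpow (by simp [hp]) ENNReal.ofReal_ne_top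
  rw [ENNReal.toReal_ofReal hp.le] at h
  exact h

theorem mom_int (p : ℝ) (hp : 0 < p) : Integrable (fun t : ℝ => |t| ^ p) (gaussianReal 0 1) := by
  have := int_norm (gaussianReal 0 1) p hp
  simpa [Real.norm_eq_abs] using this

theorem dual_mom (k : ℕ) (A : StrongDual ℝ (Eu k)) (p : ℝ) (hp : 0 < p) :
    ∫ y, |A y| ^ p ∂(stdGaussian (Eu k)) = ‖A‖ ^ p * mom p := by
  have h1 : (stdGaussian (Eu k)).map A = (gaussianReal 0 1).map (‖A‖ * ·) := by
    rw [IsGaussian.map_eq_gaussianReal, variance_dual_stdGaussian, integral_strongDual_stdGaussian,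
      gaussianReal_map_const_mul, mul_zero, mul_one]
    congr 1
    ext
    simp
  have hm : AEStronglyMeasurable (fun t : ℝ => |t| ^ p) ((stdGaussian (Eu k)).map A) := by
    apply Measurable.aestronglyMeasurable
    exact (measurable_norm (α := ℝ)).pow_const p
  have h2 : ∫ y, |A y| ^ p ∂(stdGaussian (Eu k)) = ∫ t, |t| ^ p ∂((stdGaussian (Eu k)).map A) :=
    (integral_map A.continuous.measurable.aemeasurable hm).symm
  have hm2 : AEStronglyMeasurable (fun t : ℝ => |t| ^ p) ((gaussianReal 0 1).map (‖A‖ * ·)) :=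
    Measurable.aestronglyMeasurable ((measurable_norm (α := ℝ)).pow_const p)
  rw [h2, h1, integral_map (by fun_prop) hm2]
  have h3 : ∀ t : ℝ, |‖A‖ * t| ^ p = ‖A‖ ^ p * |t| ^ p := by
    intro t
    rw [abs_mul, abs_of_nonneg (norm_nonneg _), Real.mul_rpow (norm_nonneg _) (abs_nonneg _)]
  simp only [h3]
  rw [integral_const_mul]
  rfl

theorem rot_int (k : ℕ) (φ : Eu k × Eu k → ℝ) (hφ : AEStronglyMeasurable φ ((stdGaussian (Eu k)).prod (stdGaussian (Eu k)))) (θ : ℝ) :
    ∫ z, φ (ContinuousLinearMap.rotation θ z) ∂((stdGaussian (Eu k)).prod (stdGaussian (Eu k))) =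
      ∫ z, φ z ∂((stdGaussian (Eu k)).prod (stdGaussian (Eu k))) := by
  have h := IsGaussian.map_rotation_eq_self (μ := stdGaussian (Eu k)) (by simp) θ
  conv_rhs => rw [← h]
  rw [integral_map (ContinuousLinearMap.continuous _).measurable.aemeasurable]
  rw [h]; exact hφ

theorem rot_add {E : Type*} [SeminormedAddCommGroup E] [NormedSpace ℝ E] (a b : ℝ) (z : E × E) :
    ContinuousLinearMap.rotation (a + b) z = ContinuousLinearMap.rotation a (ContinuousLinearMap.rotation b z) := by
  simp only [ContinuousLinearMap.rotation_apply, Real.cos_add, Real.sin_add]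
  ext1
  · simp only
    module
  · simp only
    module

/-- step inequality -/
theorem conc_step (k : ℕ) (F : Eu k → ℝ) (L : ℝ≥0) (hF : LipschitzWith L F) (p : ℝ) (hp : 1 ≤ p) (N : ℕ) (hN : 1 ≤ N) :
    ∫ z, |F z.1 - F z.2| ^ p ∂((stdGaussian (Eu k)).prod (stdGaussian (Eu k))) ≤
      ∫ z, |(N : ℝ) * (F (Real.cos (Real.pi / 2 / N) • z.1 + Real.sin (Real.pi / 2 / N) • z.2) - F z.1)| ^ p
        ∂((stdGaussian (Eu k)).prod (stdGaussian (Eu k))) := by
  have hp0 : 0 < p := by linarith
  have hNr : (0:ℝ) < N := by exact_mod_cast hN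
  set h : ℝ := Real.pi / 2 / N with hh
  set γγ := (stdGaussian (Eu k)).prod (stdGaussian (Eu k)) with hγγ
  let a : ℕ → Eu k × Eu k → ℝ := fun i z => F (ContinuousLinearMap.rotation (i * h) z).1
  have hFc : Continuous F := hF.continuous
  have hac : ∀ i, Continuous (a i) := fun i => hFc.comp (continuous_fst.comp (ContinuousLinearMap.continuous _))
  have ha0 : ∀ z, a 0 z = F z.1 := by
    intro z; simp [a, ContinuousLinearMap.rotation_apply]
  have haN : ∀ z, a N z = F z.2 := by
    intro z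
    have : (N:ℝ) * h = Real.pi / 2 := by rw [hh]; field_simp
    simp [a, this, ContinuousLinearMap.rotation_apply]
  let φ : Eu k × Eu k → ℝ := fun w => |F (ContinuousLinearMap.rotation h w).1 - F w.1| ^ p
  have hφc : Continuous φ := by
    apply Continuous.rpow_const _ (fun _ => Or.inr hp0.le)
    exact ((hFc.comp (continuous_fst.comp (ContinuousLinearMap.continuous _))).sub (hFc.comp continuous_fst)).abs
  have hai : ∀ i z, |a (i + 1) z - a i z| ^ p = φ (ContinuousLinearMap.rotation (i * h) z) := by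
    intro i z
    simp only [a, φ]
    rw [← rot_add]
    push_cast
    rw [show h + i * h = (i + 1) * h by ring]
  have hbase : ∀ (u v : Eu k), |F u - F v| ≤ L * ‖u - v‖ := by
    intro u v
    have := hF.dist_le_mul u v
    rwa [Real.dist_eq, dist_eq_norm] at this
  have hnz : ∀ z : Eu k × Eu k, ‖z.1‖ ≤ ‖z‖ ∧ ‖z.2‖ ≤ ‖z‖ := fun z => ⟨norm_fst_le z, norm_snd_le z⟩
  have hgauss := int_norm γγ p hp0
  have hφint : Integrable φ γγ := by
    have hb : Integrable (fun z : Eu k × Eu k => (L * 3) ^ p * ‖z‖ ^ p) γγ := hgauss.const_mul _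
    refine hb.mono' hφc.aestronglyMeasurable (Eventually.of_forall fun z => ?_)
    rw [Real.norm_eq_abs, abs_of_nonneg (Real.rpow_nonneg (abs_nonneg _) _), ← Real.mul_rpow (by positivity) (norm_nonneg _)]
    apply Real.rpow_le_rpow (abs_nonneg _) _ hp0.le
    refine (hbase _ _).trans ?_
    rw [mul_assoc]
    apply mul_le_mul_of_nonneg_left _ L.coe_nonneg
    rw [ContinuousLinearMap.rotation_apply]
    simp only
    have h1 := norm_sub_le (Real.cos h • z.1 + Real.sin h • z.2) z.1
    have h2 := norm_add_le (Real.cos h • z.1) (Real.sin h • z.2)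
    rw [norm_smul, norm_smul] at h2
    have h3 : ‖Real.cos h‖ * ‖z.1‖ ≤ 1 * ‖z‖ := mul_le_mul (Real.abs_cos_le_one _) (hnz z).1 (norm_nonneg _) (by norm_num)
    have h4 : ‖Real.sin h‖ * ‖z.2‖ ≤ 1 * ‖z‖ := mul_le_mul (Real.abs_sin_le_one _) (hnz z).2 (norm_nonneg _) (by norm_num)
    linarith [(hnz z).1]
  have hpt : ∀ z, |F z.1 - F z.2| ^ p ≤ (N : ℝ) ^ (p - 1) * ∑ i ∈ Finset.range N, φ (ContinuousLinearMap.rotation (i * h) z) := by
    intro z
    rw [← ha0, ← haN, abs_sub_comm]
    have h1 : |a N z - a 0 z| ≤ ∑ i ∈ Finset.range N, |a (i + 1) z - a i z| := by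
      rw [← Finset.sum_range_sub (fun i => a i z) N]
      exact Finset.abs_sum_le_sum_abs _ _
    have h2 := Real.rpow_le_rpow (abs_nonneg _) h1 hp0.le
    refine h2.trans ?_
    have h3 := Real.rpow_sum_le_const_mul_sum_rpow (Finset.range N) (fun i => |a (i + 1) z - a i z|) hp
    simp only [abs_abs, Finset.card_range] at h3
    refine h3.trans (le_of_eq ?_)
    congr 1
    exact Finset.sum_congr rfl fun i _ => hai i z
  have hmp : ∀ θ : ℝ, MeasurePreserving (ContinuousLinearMap.rotation θ : Eu k × Eu k →L[ℝ] Eu k × Eu k) γγ γγ := fun θ =>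
    ⟨(ContinuousLinearMap.continuous _).measurable, IsGaussian.map_rotation_eq_self (μ := stdGaussian (Eu k)) (by simp) θ⟩
  have hint1 : ∀ i : ℕ, Integrable (fun z => φ (ContinuousLinearMap.rotation (i * h) z)) γγ := by
    intro i
    exact ((hmp (i * h)).integrable_comp hφc.aestronglyMeasurable).2 hφint
  have hI : ∀ i : ℕ, ∫ z, φ (ContinuousLinearMap.rotation (i * h) z) ∂γγ = ∫ z, φ z ∂γγ := fun i =>
    rot_int k φ hφc.aestronglyMeasurable _
  have h1 : ∫ z, |F z.1 - F z.2| ^ p ∂γγ ≤ ∫ z, (N : ℝ) ^ (p - 1) * ∑ i ∈ Finset.range N, φ (ContinuousLinearMap.rotation (i * h) z) ∂γγ := by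
    apply integral_mono_of_nonneg (Eventually.of_forall fun z => Real.rpow_nonneg (abs_nonneg _) _)
    · exact (integrable_finsetSum _ fun i _ => hint1 i).const_mul _
    · exact Eventually.of_forall hpt
  refine h1.trans (le_of_eq ?_)
  rw [integral_const_mul, integral_finsetSum _ fun i _ => hint1 i, Finset.sum_congr rfl fun i _ => hI i,
    Finset.sum_const, Finset.card_range, nsmul_eq_mul, ← mul_assoc]
  have h2 : (N : ℝ) ^ (p - 1) * N = (N : ℝ) ^ p := by
    rw [← Real.rpow_add_one hNr.ne']; congr 1; ring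
  rw [h2, ← integral_const_mul]
  congr 1
  funext z
  rw [abs_mul, abs_of_pos hNr, Real.mul_rpow hNr.le (abs_nonneg _)]
  rfl

/-- Gaussian concentration in `L_p` -/
theorem gauss_conc (k : ℕ) (F : Eu k → ℝ) (L : ℝ≥0) (hF : LipschitzWith L F) (p : ℝ) (hp : 1 ≤ p) :
    ∫ z, |F z.1 - F z.2| ^ p ∂((stdGaussian (Eu k)).prod (stdGaussian (Eu k))) ≤
      (Real.pi / 2) ^ p * ((L : ℝ) ^ p * mom p) := by
  have hp0 : 0 < p := by linarith
  set γ := stdGaussian (Eu k) with hγ
  have hpi : 0 < Real.pi := Real.pi_pos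
  have hdiff : ∀ᵐ x ∂γ, DifferentiableAt ℝ F x := (std_ac k).ae_le hF.ae_differentiableAt
  have hdiff2 : ∀ᵐ z ∂(γ.prod γ), DifferentiableAt ℝ F z.1 := Measure.quasiMeasurePreserving_fst.ae hdiff
  have hFc : Continuous F := hF.continuous
  have hbase : ∀ (u v : Eu k), |F u - F v| ≤ L * ‖u - v‖ := by
    intro u v
    have := hF.dist_le_mul u v
    rwa [Real.dist_eq, dist_eq_norm] at this
  let θ : ℕ → ℝ := fun N => Real.pi / 2 / ((N + 1 : ℕ) : ℝ)
  let G : ℕ → Eu k × Eu k → ℝ := fun N z =>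
    |((N + 1 : ℕ) : ℝ) * (F (Real.cos (θ N) • z.1 + Real.sin (θ N) • z.2) - F z.1)| ^ p
  let f : Eu k × Eu k → ℝ := fun z => |(Real.pi / 2) * (fderiv ℝ F z.1 z.2)| ^ p
  let bound : Eu k × Eu k → ℝ := fun z => (L * (Real.pi / 2) * 2) ^ p * ‖z‖ ^ p
  have hGc : ∀ N, Continuous (G N) := by
    intro N
    apply Continuous.rpow_const _ (fun _ => Or.inr hp0.le)
    apply Continuous.abs
    apply Continuous.mul continuous_const
    apply Continuous.sub _ (hFc.comp continuous_fst)
    have hc : Continuous fun z : Eu k × Eu k => Real.cos (θ N) • z.1 + Real.sin (θ N) • z.2 := by fun_prop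
    exact hFc.comp hc
  have hbint : Integrable bound (γ.prod γ) := (int_norm (γ.prod γ) p hp0).const_mul _
  have hGb : ∀ N, ∀ z, ‖G N z‖ ≤ bound z := by
    intro N z
    have hN : (0:ℝ) < ((N + 1 : ℕ) : ℝ) := by positivity
    simp only [G, bound]
    rw [Real.norm_eq_abs, abs_of_nonneg (Real.rpow_nonneg (abs_nonneg _) _), ← Real.mul_rpow (by positivity) (norm_nonneg _)]
    apply Real.rpow_le_rpow (abs_nonneg _) _ hp0.le
    rw [abs_mul, abs_of_pos hN]
    have hθ0 : 0 ≤ θ N := by positivity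
    have h1 : |F (Real.cos (θ N) • z.1 + Real.sin (θ N) • z.2) - F z.1| ≤ L * (θ N * (2 * ‖z‖)) := by
      refine (hbase _ _).trans (mul_le_mul_of_nonneg_left ?_ L.coe_nonneg)
      have e1 : Real.cos (θ N) • z.1 + Real.sin (θ N) • z.2 - z.1 = (Real.cos (θ N) - 1) • z.1 + Real.sin (θ N) • z.2 := by
        module
      rw [e1]
      refine (norm_add_le _ _).trans ?_
      rw [norm_smul, norm_smul, Real.norm_eq_abs, Real.norm_eq_abs]
      have h2 : |Real.cos (θ N) - 1| ≤ θ N := by
        have := Real.abs_cos_sub_cos_le (θ N) 0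
        simpa [abs_of_nonneg hθ0] using this
      have h3 : |Real.sin (θ N)| ≤ θ N := by
        have := Real.abs_sin_le_abs (x := θ N)
        rwa [abs_of_nonneg hθ0] at this
      have h4 := norm_fst_le z
      have h5 := norm_snd_le z
      have h6 : |Real.cos (θ N) - 1| * ‖z.1‖ ≤ θ N * ‖z‖ := mul_le_mul h2 h4 (norm_nonneg _) hθ0
      have h7 : |Real.sin (θ N)| * ‖z.2‖ ≤ θ N * ‖z‖ := mul_le_mul h3 h5 (norm_nonneg _) hθ0
      linarith
    calc ((N + 1 : ℕ) : ℝ) * |F (Real.cos (θ N) • z.1 + Real.sin (θ N) • z.2) - F z.1|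
        ≤ ((N + 1 : ℕ) : ℝ) * (L * (θ N * (2 * ‖z‖))) := mul_le_mul_of_nonneg_left h1 hN.le
      _ = L * (Real.pi / 2) * 2 * ‖z‖ := by
          have : ((N + 1 : ℕ) : ℝ) * θ N = Real.pi / 2 := by simp only [θ]; field_simp
          calc _ = L * (((N + 1 : ℕ) : ℝ) * θ N) * 2 * ‖z‖ := by ring
            _ = _ := by rw [this]
  have hlim : ∀ᵐ z ∂(γ.prod γ), Tendsto (fun N => G N z) atTop (𝓝 (f z)) := by
    filter_upwards [hdiff2] with z hz
    have hθlim : Tendsto θ atTop (𝓝 0) := by
      have h1 : Tendsto (fun N : ℕ => ((N + 1 : ℕ) : ℝ)) atTop atTop :=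
        tendsto_natCast_atTop_atTop.comp (tendsto_add_atTop_nat 1)
      exact h1.const_div_atTop _
    have hθne : ∀ N, θ N ≠ 0 := fun N => by
      have : 0 < θ N := by positivity
      exact this.ne'
    have hNθ : ∀ N, ((N + 1 : ℕ) : ℝ) = (Real.pi / 2) / θ N := by
      intro N; simp only [θ]; field_simp
    -- increments
    let dd : ℕ → Eu k := fun N => (Real.cos (θ N) - 1) • z.1 + Real.sin (θ N) • z.2
    have hcos : Tendsto (fun N => ((N + 1 : ℕ) : ℝ) * (Real.cos (θ N) - 1)) atTop (𝓝 0) := by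
      have h1 : HasDerivAt Real.cos 0 0 := by simpa using Real.hasDerivAt_cos 0
      have h2 := (hasDerivAt_iff_tendsto_slope.1 h1)
      have h3 : Tendsto θ atTop (𝓝[≠] 0) := tendsto_nhdsWithin_iff.2 ⟨hθlim, Eventually.of_forall hθne⟩
      have h4 := (h2.comp h3).const_mul (Real.pi / 2)
      rw [mul_zero] at h4
      refine h4.congr fun N => ?_
      simp only [Function.comp, slope_def_field, Real.cos_zero, sub_zero]
      rw [hNθ]; ring
    have hsin : Tendsto (fun N => ((N + 1 : ℕ) : ℝ) * Real.sin (θ N)) atTop (𝓝 (Real.pi / 2)) := by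
      have h1 : HasDerivAt Real.sin 1 0 := by simpa using Real.hasDerivAt_sin 0
      have h2 := (hasDerivAt_iff_tendsto_slope.1 h1)
      have h3 : Tendsto θ atTop (𝓝[≠] 0) := tendsto_nhdsWithin_iff.2 ⟨hθlim, Eventually.of_forall hθne⟩
      have h4 := (h2.comp h3).const_mul (Real.pi / 2)
      rw [mul_one] at h4
      refine h4.congr fun N => ?_
      simp only [Function.comp, slope_def_field, Real.sin_zero, sub_zero]
      rw [hNθ]; ring
    have hdd : Tendsto dd atTop (𝓝 0) := by
      have c1 : Tendsto (fun N => Real.cos (θ N) - 1) atTop (𝓝 0) := by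
        have := (Real.continuous_cos.tendsto 0).comp hθlim
        simpa using this.sub_const 1
      have c2 : Tendsto (fun N => Real.sin (θ N)) atTop (𝓝 0) := by
        have := (Real.continuous_sin.tendsto 0).comp hθlim
        rw [Real.sin_zero] at this
        exact this
      have := (c1.smul_const z.1).add (c2.smul_const z.2)
      simpa [dd] using this
    have hcd : Tendsto (fun N => ((N + 1 : ℕ) : ℝ) • dd N) atTop (𝓝 ((Real.pi / 2) • z.2)) := by
      have := (hcos.smul_const z.1).add (hsin.smul_const z.2)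
      rw [zero_smul, zero_add] at this
      refine this.congr fun N => ?_
      simp only [dd]
      module
    have hmain := (hasFDerivWithinAt_univ.2 hz.hasFDerivAt).lim hdd (Eventually.of_forall fun _ => Set.mem_univ _) hcd
    have hmain2 : Tendsto (fun N : ℕ => |((N + 1 : ℕ) : ℝ) * (F (Real.cos (θ N) • z.1 + Real.sin (θ N) • z.2) - F z.1)|) atTop
        (𝓝 |(Real.pi / 2) * (fderiv ℝ F z.1 z.2)|) := by
      rw [map_smul, smul_eq_mul] at hmain
      refine (hmain.abs).congr fun N => ?_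
      rw [smul_eq_mul]
      have : z.1 + dd N = Real.cos (θ N) • z.1 + Real.sin (θ N) • z.2 := by
        simp only [dd]; module
      rw [this]
    exact hmain2.rpow_const (Or.inr hp0.le)
  have hT := tendsto_integral_of_dominated_convergence bound (fun N => (hGc N).aestronglyMeasurable) hbint
    (fun N => Eventually.of_forall (hGb N)) hlim
  have hle : ∫ z, |F z.1 - F z.2| ^ p ∂(γ.prod γ) ≤ ∫ z, f z ∂(γ.prod γ) := by
    apply ge_of_tendsto hT
    exact Eventually.of_forall fun N => conc_step k F L hF p hp (N + 1) (by omega)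
  refine hle.trans ?_
  have hfm : AEStronglyMeasurable f (γ.prod γ) := aestronglyMeasurable_of_tendsto_ae atTop (fun N => (hGc N).aestronglyMeasurable) hlim
  have hfb : ∀ᵐ z ∂(γ.prod γ), ‖f z‖ ≤ bound z := by
    filter_upwards [hlim] with z hz
    exact le_of_tendsto hz.norm (Eventually.of_forall fun N => hGb N z)
  have hfint : Integrable f (γ.prod γ) := hbint.mono' hfm hfb
  rw [integral_prod f hfint]
  have hinner : ∀ x, ∫ y, f (x, y) ∂γ = (Real.pi / 2) ^ p * (‖fderiv ℝ F x‖ ^ p * mom p) := by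
    intro x
    have e1 : ∀ y, f (x, y) = (Real.pi / 2) ^ p * |fderiv ℝ F x y| ^ p := by
      intro y
      simp only [f]
      rw [abs_mul, abs_of_pos (by positivity), Real.mul_rpow (by positivity) (abs_nonneg _)]
    simp only [e1]
    rw [integral_const_mul, dual_mom k _ p hp0]
  simp only [hinner]
  have hmom : 0 ≤ mom p := integral_nonneg fun t => Real.rpow_nonneg (abs_nonneg _) _
  have hbd : ∀ x, (Real.pi / 2) ^ p * (‖fderiv ℝ F x‖ ^ p * mom p) ≤ (Real.pi / 2) ^ p * ((L : ℝ) ^ p * mom p) := by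
    intro x
    apply mul_le_mul_of_nonneg_left _ (by positivity)
    apply mul_le_mul_of_nonneg_right _ hmom
    exact Real.rpow_le_rpow (norm_nonneg _) (norm_fderiv_le_of_lipschitz ℝ hF) hp0.le
  calc ∫ x, (Real.pi / 2) ^ p * (‖fderiv ℝ F x‖ ^ p * mom p) ∂γ ≤ ∫ x, (Real.pi / 2) ^ p * ((L : ℝ) ^ p * mom p) ∂γ := by
        apply integral_mono_of_nonneg _ (integrable_const _) (Eventually.of_forall hbd)
        exact Eventually.of_forall fun x => mul_nonneg (by positivity) (mul_nonneg (by positivity) hmom)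
    _ = _ := by simp

end Vale.Agent.P249
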