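import Mathlib
import Vale.Agent.P249.Gauss

set_option linter.unusedVariables false
set_option linter.unusedSectionVars false

open MeasureTheory ProbabilityTheory Filter Topology
open scoped ENNReal NNReal RealInnerProductSpace

namespace Vale.Agent.P249

theorem mom_nonneg (p : ℝ) : 0 ≤ mom p := integral_nonneg fun t => Real.rpow_nonneg (abs_nonneg _) _

theorem mom_two : mom 2 = 1 := by
  have h1 : mom 2 = ∫ t, t ^ 2 ∂(gaussianReal 0 1) := by
    unfold mom
    congr 1
    funext t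
    rw [show (2:ℝ) = ((2:ℕ):ℝ) by norm_num, Real.rpow_natCast, sq_abs]
  rw [h1]
  have h2 := variance_of_integral_eq_zero (μ := gaussianReal 0 1) (X := id) measurable_id.aemeasurable (by simp)
  rw [variance_id_gaussianReal] at h2
  simpa using h2.symm

theorem coord_mp (k : ℕ) (i : Fin k) : MeasurePreserving (fun x : Eu k => x i) (stdGaussian (Eu k)) (gaussianReal 0 1) := by
  have h := measurePreserving_eval_multivariateGaussian (μ := (0 : Eu k)) (S := (1 : Matrix (Fin k) (Fin k) ℝ)) Matrix.PosSemidef.one (i := i)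
  rw [multivariateGaussian_zero_one] at h
  simpa using h

theorem coord_mom (k : ℕ) (i : Fin k) (p : ℝ) : ∫ x : Eu k, |x i| ^ p ∂(stdGaussian (Eu k)) = mom p := by
  unfold mom
  rw [← (coord_mp k i).map_eq, integral_map (coord_mp k i).measurable.aemeasurable]
  exact ((measurable_norm (α := ℝ)).pow_const p).aestronglyMeasurable

theorem coord_int (k : ℕ) (i : Fin k) (p : ℝ) (hp : 0 < p) : Integrable (fun x : Eu k => |x i| ^ p) (stdGaussian (Eu k)) := by
  have h := mom_int p hp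
  exact ((coord_mp k i).integrable_comp ((measurable_norm (α := ℝ)).pow_const p).aestronglyMeasurable).2 h

theorem norm_sq_int (k : ℕ) : ∫ x : Eu k, ‖x‖ ^ 2 ∂(stdGaussian (Eu k)) = k := by
  have h1 : ∀ x : Eu k, ‖x‖ ^ 2 = ∑ i, |x i| ^ (2:ℝ) := by
    intro x
    rw [EuclideanSpace.real_norm_sq_eq]
    apply Finset.sum_congr rfl
    intro i _
    rw [show (2:ℝ) = ((2:ℕ):ℝ) by norm_num, Real.rpow_natCast, sq_abs]
  simp only [h1]
  rw [integral_finsetSum _ fun i _ => coord_int k i 2 (by norm_num)]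
  simp only [coord_mom, mom_two]
  simp

theorem norm_p_ge (k : ℕ) (p : ℝ) (hp : 2 ≤ p) : (k : ℝ) ^ (p / 2) ≤ ∫ x : Eu k, ‖x‖ ^ p ∂(stdGaussian (Eu k)) := by
  have hfi : Integrable (fun x : Eu k => ‖x‖ ^ 2) (stdGaussian (Eu k)) := by
    have := int_norm (stdGaussian (Eu k)) 2 (by norm_num)
    refine this.congr (Eventually.of_forall fun x => ?_)
    simp only
    rw [show (2:ℝ) = ((2:ℕ):ℝ) by norm_num, Real.rpow_natCast]
  have he : ∀ x : Eu k, (‖x‖ ^ 2) ^ (p / 2) = ‖x‖ ^ p := by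
    intro x
    rw [← Real.rpow_natCast, ← Real.rpow_mul (norm_nonneg _)]
    congr 1; push_cast; ring
  have hgi : Integrable ((fun t : ℝ => t ^ (p / 2)) ∘ fun x : Eu k => ‖x‖ ^ 2) (stdGaussian (Eu k)) := by
    refine (int_norm (stdGaussian (Eu k)) p (by linarith)).congr (Eventually.of_forall fun x => ?_)
    simp only [Function.comp]
    rw [he]
  have h := (convexOn_rpow (p := p / 2) (by linarith)).map_integral_le
    (Real.continuous_rpow_const (by linarith)).continuousOn isClosed_Ici (μ := stdGaussian (Eu k)) (f := fun x : Eu k => ‖x‖ ^ 2)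
    (Eventually.of_forall fun x => Set.mem_Ici.2 (by positivity)) hfi hgi
  rw [norm_sq_int] at h
  simpa only [he] using h

theorem diff_p_ge (k : ℕ) (p : ℝ) (hp : 2 ≤ p) :
    (k : ℝ) ^ (p / 2) ≤ ∫ z : Eu k × Eu k, ‖z.1 - z.2‖ ^ p ∂((stdGaussian (Eu k)).prod (stdGaussian (Eu k))) := by
  have hp0 : 0 < p := by linarith
  set γ := stdGaussian (Eu k) with hγ
  have hc : Continuous fun z : Eu k × Eu k => ‖z.1‖ ^ p :=
    (continuous_fst.norm).rpow_const (fun _ => Or.inr hp0.le)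
  have h1 := rot_int k (fun z => ‖z.1‖ ^ p) hc.aestronglyMeasurable (-(Real.pi / 4))
  have h2 : ∫ z : Eu k × Eu k, ‖z.1‖ ^ p ∂(γ.prod γ) = ∫ x : Eu k, ‖x‖ ^ p ∂γ := by
    have := integral_fun_fst (μ := γ) (ν := γ) (fun x : Eu k => ‖x‖ ^ p)
    simpa using this
  have h3 : ∫ z : Eu k × Eu k, ‖(ContinuousLinearMap.rotation (-(Real.pi / 4)) z).1‖ ^ p ∂(γ.prod γ) ≤
      ∫ z : Eu k × Eu k, ‖z.1 - z.2‖ ^ p ∂(γ.prod γ) := by
    apply integral_mono_of_nonneg (Eventually.of_forall fun z => Real.rpow_nonneg (norm_nonneg _) _)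
    · have hb : Integrable (fun z : Eu k × Eu k => (2:ℝ) ^ p * ‖z‖ ^ p) (γ.prod γ) := (int_norm (γ.prod γ) p hp0).const_mul _
      have hcc : Continuous fun z : Eu k × Eu k => ‖z.1 - z.2‖ ^ p :=
        (continuous_fst.sub continuous_snd).norm.rpow_const (fun _ => Or.inr hp0.le)
      refine hb.mono' hcc.aestronglyMeasurable (Eventually.of_forall fun z => ?_)
      rw [Real.norm_eq_abs, abs_of_nonneg (Real.rpow_nonneg (norm_nonneg _) _), ← Real.mul_rpow (by norm_num) (norm_nonneg _)]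
      apply Real.rpow_le_rpow (norm_nonneg _) _ hp0.le
      have := norm_sub_le z.1 z.2
      linarith [norm_fst_le z, norm_snd_le z]
    · refine Eventually.of_forall fun z => ?_
      apply Real.rpow_le_rpow (norm_nonneg _) _ hp0.le
      rw [ContinuousLinearMap.rotation_apply]
      simp only [Real.cos_neg, Real.sin_neg, Real.cos_pi_div_four, Real.sin_pi_div_four]
      have e : (√2 / 2) • z.1 + -(√2 / 2) • z.2 = (√2 / 2) • (z.1 - z.2) := by module
      rw [e, norm_smul, Real.norm_eq_abs, abs_of_nonneg (by positivity)]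
      have h4 : √2 / 2 ≤ 1 := by
        have : √2 ≤ 2 := by rw [Real.sqrt_le_left (by norm_num)]; norm_num
        linarith
      exact mul_le_of_le_one_left (norm_nonneg _) h4
  rw [h1, h2] at h3
  exact (norm_p_ge k p hp).trans h3

theorem three_rpow (p : ℝ) (hp : 1 ≤ p) (a b c : ℝ) (ha : 0 ≤ a) (hb : 0 ≤ b) (hc : 0 ≤ c) :
    (a + b + c) ^ p ≤ 3 ^ (p - 1) * (a ^ p + b ^ p + c ^ p) := by
  have h := Real.rpow_sum_le_const_mul_sum_rpow (Finset.univ : Finset (Fin 3)) ![a, b, c] hp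
  simp only [Fin.sum_univ_three, Matrix.cons_val_zero, Matrix.cons_val_one, Matrix.cons_val_two, Finset.card_univ, Fintype.card_fin] at h
  norm_num [abs_of_nonneg ha, abs_of_nonneg hb, abs_of_nonneg hc] at h
  exact h

theorem two_rpow (p : ℝ) (hp : 1 ≤ p) (a b : ℝ) (ha : 0 ≤ a) (hb : 0 ≤ b) :
    (a + b) ^ p ≤ 2 ^ (p - 1) * (a ^ p + b ^ p) := by
  have h := Real.rpow_sum_le_const_mul_sum_rpow (Finset.univ : Finset (Fin 2)) ![a, b] hp
  simp only [Fin.sum_univ_two, Matrix.cons_val_zero, Matrix.cons_val_one, Finset.card_univ, Fintype.card_fin] at h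
  norm_num [abs_of_nonneg ha, abs_of_nonneg hb] at h
  exact h

/-- rounding of a real number to the grid `(1/k) ℤ ∩ [-k, k]` -/
noncomputable def rd (k : ℕ) (t : ℝ) : ℝ := (⌊(k : ℝ) * max (-(k : ℝ)) (min (k : ℝ) t)⌋ : ℝ) / k

theorem rd_err (k : ℕ) (hk : 1 ≤ k) (t : ℝ) : |t - rd k t| ≤ 1 / k + t ^ 2 / k := by
  have hkr : (0:ℝ) < k := by exact_mod_cast hk
  set c := max (-(k : ℝ)) (min (k : ℝ) t) with hc
  have h1 : |c - rd k t| ≤ 1 / k := by
    have e : c - rd k t = ((k : ℝ) * c - ⌊(k : ℝ) * c⌋) / k := by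
      unfold rd; rw [← hc]; field_simp
    rw [e, abs_div, abs_of_pos hkr]
    apply div_le_div_of_nonneg_right _ hkr.le
    rw [abs_of_nonneg (sub_nonneg.2 (Int.floor_le _))]
    linarith [Int.lt_floor_add_one ((k : ℝ) * c)]
  have h2 : |t - c| ≤ t ^ 2 / k := by
    rw [le_div_iff₀ hkr]
    rcases le_total t (-(k:ℝ)) with h | h
    · have : c = -(k:ℝ) := by rw [hc]; apply max_eq_left; exact (min_le_right _ _).trans h
      rw [this, abs_of_nonpos (by linarith)]
      nlinarith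
    · rcases le_total t (k:ℝ) with h' | h'
      · have : c = t := by rw [hc, min_eq_right h', max_eq_right h]
        rw [this, sub_self, abs_zero, zero_mul]; positivity
      · have : c = k := by rw [hc, min_eq_left h', max_eq_right (by linarith)]
        rw [this, abs_of_nonneg (by linarith)]
        nlinarith
  have h3 := abs_sub_le t c (rd k t)
  linarith

theorem rd_meas (k : ℕ) : Measurable (rd k) := by
  unfold rd
  apply Measurable.div_const
  have h1 : Measurable fun t : ℝ => (k : ℝ) * max (-(k : ℝ)) (min (k : ℝ) t) :=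
    (measurable_const.max (measurable_const.min measurable_id)).const_mul _
  exact (measurable_of_countable (fun z : ℤ => (z : ℝ))).comp (Int.measurable_floor.comp h1)

/-- rounding of a vector -/
noncomputable def rv (k : ℕ) (x : Eu k) : Eu k := WithLp.toLp 2 fun i => rd k (x i)

theorem rv_meas (k : ℕ) : Measurable (rv k) := by
  unfold rv
  apply (PiLp.volume_preserving_toLp (Fin k)).measurable.comp
  rw [measurable_pi_iff]
  intro i
  exact (rd_meas k).comp (coord_mp k i).measurable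

theorem rv_err (k : ℕ) (hk : 1 ≤ k) (x : Eu k) : ‖x - rv k x‖ ≤ 1 + (∑ i, |x i| ^ (2:ℝ)) / k := by
  have hkr : (0:ℝ) < k := by exact_mod_cast hk
  have h1 : ‖x - rv k x‖ ≤ ∑ i, |x i - rd k (x i)| := by
    rw [EuclideanSpace.norm_eq]
    rw [Real.sqrt_le_left (Finset.sum_nonneg fun i _ => abs_nonneg _)]
    have := Finset.sum_sq_le_sq_sum_of_nonneg (s := (Finset.univ : Finset (Fin k))) (f := fun i => |x i - rd k (x i)|) (fun i _ => abs_nonneg _)
    exact this
  have h2 : ∑ i, |x i - rd k (x i)| ≤ ∑ i : Fin k, (1 / (k:ℝ) + |x i| ^ (2:ℝ) / k) := by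
    apply Finset.sum_le_sum
    intro i _
    refine (rd_err k hk (x i)).trans (le_of_eq ?_)
    rw [show (2:ℝ) = ((2:ℕ):ℝ) by norm_num, Real.rpow_natCast, sq_abs]
  rw [Finset.sum_add_distrib, Finset.sum_const, Finset.card_univ, Fintype.card_fin, nsmul_eq_mul, mul_one_div_cancel hkr.ne',
    ← Finset.sum_div] at h2
  exact h1.trans h2

/-- the constant of the rounding error -/
noncomputable def Er (p : ℝ) : ℝ := 2 ^ (p - 1) * (1 + mom (2 * p))

theorem rv_err_pt (k : ℕ) (hk : 1 ≤ k) (p : ℝ) (hp : 1 ≤ p) (x : Eu k) :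
    ‖x - rv k x‖ ^ p ≤ 2 ^ (p - 1) * (1 + (∑ i, |x i| ^ (2 * p)) / k) := by
  have hkr : (0:ℝ) < k := by exact_mod_cast hk
  have hp0 : 0 < p := by linarith
  have hS : 0 ≤ (∑ i, |x i| ^ (2:ℝ)) / (k:ℝ) := div_nonneg (Finset.sum_nonneg fun i _ => Real.rpow_nonneg (abs_nonneg _) _) hkr.le
  have h1 : ‖x - rv k x‖ ^ p ≤ (1 + (∑ i, |x i| ^ (2:ℝ)) / k) ^ p := Real.rpow_le_rpow (norm_nonneg _) (rv_err k hk x) hp0.le
  have h2 := two_rpow p hp 1 ((∑ i, |x i| ^ (2:ℝ)) / k) (by norm_num) hS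
  have h3 : ((∑ i, |x i| ^ (2:ℝ)) / (k:ℝ)) ^ p ≤ (∑ i, |x i| ^ (2 * p)) / k := by
    have h4 := Real.rpow_sum_le_const_mul_sum_rpow (Finset.univ : Finset (Fin k)) (fun i => |x i| ^ (2:ℝ)) hp
    simp only [abs_of_nonneg (Real.rpow_nonneg (abs_nonneg _) _), Finset.card_univ, Fintype.card_fin] at h4
    have h5 : ∀ i, (|x i| ^ (2:ℝ)) ^ p = |x i| ^ (2 * p) := fun i => by rw [← Real.rpow_mul (abs_nonneg _)]
    simp only [h5] at h4
    rw [Real.div_rpow (Finset.sum_nonneg fun i _ => Real.rpow_nonneg (abs_nonneg _) _) hkr.le]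
    rw [div_le_iff₀ (Real.rpow_pos_of_pos hkr p)]
    refine h4.trans (le_of_eq ?_)
    have h6 : (k:ℝ) ^ p = (k:ℝ) ^ (p - 1) * k := by rw [← Real.rpow_add_one hkr.ne']; congr 1; ring
    rw [h6]; field_simp
  refine h1.trans (h2.trans ?_)
  rw [Real.one_rpow]
  apply mul_le_mul_of_nonneg_left _ (by positivity)
  linarith

theorem rv_bound_int (k : ℕ) (p : ℝ) (hp : 1 ≤ p) :
    Integrable (fun x : Eu k => 2 ^ (p - 1) * (1 + (∑ i, |x i| ^ (2 * p)) / k)) (stdGaussian (Eu k)) := by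
  apply Integrable.const_mul
  apply Integrable.add (integrable_const _)
  apply Integrable.div_const
  exact integrable_finsetSum _ fun i _ => coord_int k i (2 * p) (by linarith)

theorem rv_err_int (k : ℕ) (hk : 1 ≤ k) (p : ℝ) (hp : 1 ≤ p) :
    Integrable (fun x : Eu k => ‖x - rv k x‖ ^ p) (stdGaussian (Eu k)) ∧
      ∫ x : Eu k, ‖x - rv k x‖ ^ p ∂(stdGaussian (Eu k)) ≤ Er p := by
  have hkr : (0:ℝ) < k := by exact_mod_cast hk
  have hm : Measurable fun x : Eu k => ‖x - rv k x‖ ^ p := (measurable_id.sub (rv_meas k)).norm.pow_const p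
  have hint : Integrable (fun x : Eu k => ‖x - rv k x‖ ^ p) (stdGaussian (Eu k)) := by
    refine (rv_bound_int k p hp).mono' hm.aestronglyMeasurable (Eventually.of_forall fun x => ?_)
    rw [Real.norm_eq_abs, abs_of_nonneg (Real.rpow_nonneg (norm_nonneg _) _)]
    exact rv_err_pt k hk p hp x
  refine ⟨hint, ?_⟩
  have h1 := integral_mono hint (rv_bound_int k p hp) (rv_err_pt k hk p hp)
  refine h1.trans (le_of_eq ?_)
  rw [integral_const_mul, integral_add (integrable_const _) ((integrable_finsetSum _ fun i _ => coord_int k i (2 * p) (by linarith)).div_const _),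
    integral_div, integral_finsetSum _ fun i _ => coord_int k i (2 * p) (by linarith)]
  simp only [coord_mom]
  simp only [integral_const, probReal_univ, smul_eq_mul, one_mul, Finset.sum_const, Finset.card_univ, Fintype.card_fin, nsmul_eq_mul]
  unfold Er
  field_simp

/-- the grid -/
noncomputable def Gr (k : ℕ) : Finset (Eu k) :=
  (Fintype.piFinset fun _ : Fin k => Finset.Icc (-(k ^ 2 : ℤ)) (k ^ 2)).image
    fun j => (WithLp.toLp 2 fun i => (j i : ℝ) / k : Eu k)

theorem Gr_card (k : ℕ) : (Gr k).card ≤ (2 * k ^ 2 + 1) ^ k := by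
  refine Finset.card_image_le.trans (le_of_eq ?_)
  rw [Fintype.card_piFinset]
  simp only [Int.card_Icc, Finset.prod_const, Finset.card_univ, Fintype.card_fin]
  congr 1
  have h : ((k : ℤ) ^ 2) = ((k ^ 2 : ℕ) : ℤ) := by push_cast; rfl
  rw [h]
  omega

theorem rv_mem (k : ℕ) (x : Eu k) : rv k x ∈ Gr k := by
  unfold Gr
  rw [Finset.mem_image]
  refine ⟨fun i => ⌊(k : ℝ) * max (-(k : ℝ)) (min (k : ℝ) (x i))⌋, ?_, rfl⟩
  rw [Fintype.mem_piFinset]
  intro i
  rw [Finset.mem_Icc]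
  have hk : (0:ℝ) ≤ k := Nat.cast_nonneg _
  have h1 : -(k:ℝ) ≤ max (-(k : ℝ)) (min (k : ℝ) (x i)) := le_max_left _ _
  have h2 : max (-(k : ℝ)) (min (k : ℝ) (x i)) ≤ k := max_le (by linarith) (min_le_left _ _)
  constructor
  · rw [Int.le_floor]
    push_cast
    nlinarith
  · have h3 : (k : ℝ) * max (-(k : ℝ)) (min (k : ℝ) (x i)) ≤ ((k ^ 2 : ℤ) : ℝ) := by
      push_cast; nlinarith
    have h4 := (Int.floor_le _).trans h3
    exact_mod_cast h4

end Vale.Agent.P249
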