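import Mathlib
import Vale.Agent.P249.Grid
import Vale.Agent.P249.Combine2

set_option linter.unusedVariables false
set_option linter.unusedSectionVars false

open MeasureTheory ProbabilityTheory Filter Topology
open scoped ENNReal NNReal RealInnerProductSpace

namespace Vale.Agent.P249

theorem one_le_mom (p : ℝ) (hp : 2 ≤ p) : 1 ≤ mom p := by
  have h := norm_p_ge 1 p hp
  have h1 : ∀ x : Eu 1, ‖x‖ ^ p = |x 0| ^ p := by
    intro x
    rw [EuclideanSpace.norm_eq]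
    simp [Real.sqrt_sq_eq_abs]
  simp only [h1, coord_mom] at h
  simpa using h

theorem emb_exists (k : ℕ) (p : ℝ) (hp : 1 ≤ p) {Ω : Type*} [MeasurableSpace Ω] (μ : Measure Ω) (T : Ω → Eu k)
    (hT : MeasurePreserving T μ (stdGaussian (Eu k))) :
    ∃ φ : Eu k → Lp ℝ (ENNReal.ofReal p) μ, ∀ u v, ‖φ u - φ v‖ = mom p ^ (1 / p) * ‖u - v‖ := by
  have hp0 : 0 < p := by linarith
  have hmem : ∀ u : Eu k, MemLp (fun ω => (innerSL ℝ u) (T ω)) (ENNReal.ofReal p) μ := by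
    intro u
    have h1 : MemLp (fun y => (innerSL ℝ u) y) (ENNReal.ofReal p) (stdGaussian (Eu k)) :=
      IsGaussian.memLp_dual _ (innerSL ℝ u) _ ENNReal.ofReal_ne_top
    exact h1.comp_measurePreserving hT
  refine ⟨fun u => (hmem u).toLp _, fun u v => ?_⟩
  have h1 := (norm_fact2 p hp ((hmem u).toLp _) ((hmem v).toLp _)).2
  have h2 : ∫ ω, |((hmem u).toLp _ : Lp ℝ (ENNReal.ofReal p) μ) ω - ((hmem v).toLp _ : Lp ℝ (ENNReal.ofReal p) μ) ω| ^ p ∂μ
      = ∫ ω, |(innerSL ℝ (u - v)) (T ω)| ^ p ∂μ := by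
    apply integral_congr_ae
    filter_upwards [(hmem u).coeFn_toLp, (hmem v).coeFn_toLp] with ω h3 h4
    rw [h3, h4, map_sub]
    rfl
  have h3 : ∫ ω, |(innerSL ℝ (u - v)) (T ω)| ^ p ∂μ = ∫ y, |(innerSL ℝ (u - v)) y| ^ p ∂(stdGaussian (Eu k)) := by
    rw [← hT.map_eq, integral_map hT.measurable.aemeasurable]
    exact (((innerSL ℝ (u - v)).continuous.measurable.norm).pow_const p).aestronglyMeasurable
  rw [h2, h3, dual_mom k _ p hp0, innerSL_apply_norm] at h1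
  have h4 : ‖((hmem u).toLp _ : Lp ℝ (ENNReal.ofReal p) μ) - (hmem v).toLp _‖ =
      (‖((hmem u).toLp _ : Lp ℝ (ENNReal.ofReal p) μ) - (hmem v).toLp _‖ ^ p) ^ (1 / p) := by
    rw [← Real.rpow_mul, mul_one_div_cancel hp0.ne', Real.rpow_one]
    have : Fact (1 ≤ ENNReal.ofReal p) := ⟨by rw [← ENNReal.ofReal_one]; exact ENNReal.ofReal_le_ofReal hp⟩
    exact norm_nonneg _
  rw [h4, ← h1, Real.mul_rpow (Real.rpow_nonneg (norm_nonneg _) _) (mom_nonneg p), ← Real.rpow_mul (norm_nonneg _),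
    mul_one_div_cancel hp0.ne', Real.rpow_one, mul_comm]

/-- `ℓ_p` norm (p-th power) -/
theorem coord_le (p : ℝ) (hp : 0 < p) {d : ℕ} (y : Fin d → ℝ) (j : Fin d) : |y j| ≤ (∑ k, |y k| ^ p) ^ (1 / p) := by
  have h1 : |y j| ^ p ≤ ∑ k, |y k| ^ p :=
    Finset.single_le_sum (f := fun k => |y k| ^ p) (fun k _ => Real.rpow_nonneg (abs_nonneg _) _) (Finset.mem_univ j)
  have h2 := Real.rpow_le_rpow (Real.rpow_nonneg (abs_nonneg _) _) h1 (by positivity : 0 ≤ 1 / p)
  rwa [← Real.rpow_mul (abs_nonneg _), mul_one_div_cancel hp.ne', Real.rpow_one] at h2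

theorem lower_main (p : ℝ) (hp : 2 ≤ p) (k : ℕ) (hk : 1 ≤ k) (d : ℕ) (D a : ℝ) (ha : 0 < a) (hD : 0 < D)
    (ψ : Eu k → Fin d → ℝ)
    (h1 : ∀ u ∈ Gr k, ∀ v ∈ Gr k, a * ‖u - v‖ ≤ (∑ j, |ψ u j - ψ v j| ^ p) ^ (1 / p))
    (h2 : ∀ u ∈ Gr k, ∀ v ∈ Gr k, (∑ j, |ψ u j - ψ v j| ^ p) ^ (1 / p) ≤ D * a * ‖u - v‖) :
    (k : ℝ) ^ (p / 2) ≤ 3 ^ (p - 1) * (d * (3 ^ (p - 1) * (D ^ p * ((Real.pi / 2) ^ p * mom p + 2 * Er p))) + 2 * Er p) := by
  have hp0 : 0 < p := by linarith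
  have hp1 : 1 ≤ p := by linarith
  set γ := stdGaussian (Eu k) with hγ
  set L : ℝ≥0 := ⟨D * a, by positivity⟩ with hL
  have hLc : (L : ℝ) = D * a := rfl
  -- extensions
  have hext : ∀ j : Fin d, ∃ F : Eu k → ℝ, LipschitzWith L F ∧ ∀ u ∈ Gr k, ψ u j = F u := by
    intro j
    have : LipschitzOnWith L (fun u => ψ u j) (Gr k : Set (Eu k)) := by
      apply LipschitzOnWith.of_dist_le_mul
      intro u hu v hv
      rw [Real.dist_eq, dist_eq_norm, hLc]
      exact (coord_le p hp0 (fun j => ψ u j - ψ v j) j).trans (h2 u hu v hv)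
    obtain ⟨F, hF, hE⟩ := this.extend_real
    exact ⟨F, hF, fun u hu => hE hu⟩
  choose F hF hE using hext
  let e : Eu k → ℝ := fun x => ‖x - rv k x‖ ^ p
  obtain ⟨heint, heI⟩ := rv_err_int k hk p hp1
  have he1 : Integrable (fun z : Eu k × Eu k => e z.1) (γ.prod γ) := heint.comp_fst γ
  have he2 : Integrable (fun z : Eu k × Eu k => e z.2) (γ.prod γ) := heint.comp_snd γ
  have heI1 : ∫ z : Eu k × Eu k, e z.1 ∂(γ.prod γ) ≤ Er p := by
    have := integral_fun_fst (μ := γ) (ν := γ) e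
    rw [this]; simpa using heI
  have heI2 : ∫ z : Eu k × Eu k, e z.2 ∂(γ.prod γ) ≤ Er p := by
    have := integral_fun_snd (μ := γ) (ν := γ) e
    rw [this]; simpa using heI
  have hErnn : 0 ≤ Er p := by
    unfold Er; have := mom_nonneg (2 * p); positivity
  have hgi := int_norm (γ.prod γ) p hp0
  -- bound for each coordinate
  have hB : ∀ j, Integrable (fun z : Eu k × Eu k => |F j (rv k z.1) - F j (rv k z.2)| ^ p) (γ.prod γ) ∧
      ∫ z : Eu k × Eu k, |F j (rv k z.1) - F j (rv k z.2)| ^ p ∂(γ.prod γ) ≤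
        3 ^ (p - 1) * ((L : ℝ) ^ p * ((Real.pi / 2) ^ p * mom p + 2 * Er p)) := by
    intro j
    have hlip : ∀ u v, |F j u - F j v| ≤ L * ‖u - v‖ := by
      intro u v
      have := (hF j).dist_le_mul u v
      rwa [Real.dist_eq, dist_eq_norm] at this
    have hcF := (hF j).continuous
    have hdint : Integrable (fun z : Eu k × Eu k => |F j z.1 - F j z.2| ^ p) (γ.prod γ) := by
      have hb : Integrable (fun z : Eu k × Eu k => ((L:ℝ) * 2) ^ p * ‖z‖ ^ p) (γ.prod γ) := hgi.const_mul _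
      have hcc : Continuous fun z : Eu k × Eu k => |F j z.1 - F j z.2| ^ p :=
        ((hcF.comp continuous_fst).sub (hcF.comp continuous_snd)).abs.rpow_const (fun _ => Or.inr hp0.le)
      refine hb.mono' hcc.aestronglyMeasurable (Eventually.of_forall fun z => ?_)
      rw [Real.norm_eq_abs, abs_of_nonneg (Real.rpow_nonneg (abs_nonneg _) _), ← Real.mul_rpow (by positivity) (norm_nonneg _)]
      apply Real.rpow_le_rpow (abs_nonneg _) _ hp0.le
      refine (hlip _ _).trans ?_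
      rw [mul_assoc]
      apply mul_le_mul_of_nonneg_left _ L.coe_nonneg
      have := norm_sub_le z.1 z.2
      linarith [norm_fst_le z, norm_snd_le z]
    let bd : Eu k × Eu k → ℝ := fun z => 3 ^ (p - 1) * (|F j z.1 - F j z.2| ^ p + (L:ℝ) ^ p * e z.1 + (L:ℝ) ^ p * e z.2)
    have hbd : Integrable bd (γ.prod γ) := ((hdint.add (he1.const_mul _)).add (he2.const_mul _)).const_mul _
    have hpt : ∀ z : Eu k × Eu k, |F j (rv k z.1) - F j (rv k z.2)| ^ p ≤ bd z := by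
      intro z
      have t1 : |F j (rv k z.1) - F j (rv k z.2)| ≤ |F j z.1 - F j z.2| + L * ‖z.1 - rv k z.1‖ + L * ‖z.2 - rv k z.2‖ := by
        have a1 := abs_sub_le (F j (rv k z.1)) (F j z.1) (F j (rv k z.2))
        have a2 := abs_sub_le (F j z.1) (F j z.2) (F j (rv k z.2))
        have a3 := hlip z.1 (rv k z.1)
        have a4 := hlip z.2 (rv k z.2)
        rw [abs_sub_comm] at a3
        linarith
      have t2 := Real.rpow_le_rpow (abs_nonneg _) t1 hp0.le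
      refine t2.trans ((three_rpow p hp1 _ _ _ (abs_nonneg _) (by positivity) (by positivity)).trans (le_of_eq ?_))
      simp only [bd, e]
      rw [Real.mul_rpow L.coe_nonneg (norm_nonneg _), Real.mul_rpow L.coe_nonneg (norm_nonneg _)]
    have hmeas : Measurable fun z : Eu k × Eu k => |F j (rv k z.1) - F j (rv k z.2)| ^ p := by
      have m1 : Measurable fun z : Eu k × Eu k => F j (rv k z.1) - F j (rv k z.2) :=
        (hcF.measurable.comp ((rv_meas k).comp measurable_fst)).sub (hcF.measurable.comp ((rv_meas k).comp measurable_snd))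
      exact m1.norm.pow_const p
    have hint : Integrable (fun z : Eu k × Eu k => |F j (rv k z.1) - F j (rv k z.2)| ^ p) (γ.prod γ) := by
      refine hbd.mono' hmeas.aestronglyMeasurable (Eventually.of_forall fun z => ?_)
      rw [Real.norm_eq_abs, abs_of_nonneg (Real.rpow_nonneg (abs_nonneg _) _)]
      exact hpt z
    refine ⟨hint, (integral_mono hint hbd hpt).trans ?_⟩
    simp only [bd]
    have hi1 : ∫ z : Eu k × Eu k, (|F j z.1 - F j z.2| ^ p + (L:ℝ) ^ p * e z.1 + (L:ℝ) ^ p * e z.2) ∂(γ.prod γ)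
        = ∫ z : Eu k × Eu k, |F j z.1 - F j z.2| ^ p ∂(γ.prod γ) + (L:ℝ) ^ p * ∫ z : Eu k × Eu k, e z.1 ∂(γ.prod γ)
          + (L:ℝ) ^ p * ∫ z : Eu k × Eu k, e z.2 ∂(γ.prod γ) := by
      have q1 : ∫ z : Eu k × Eu k, (|F j z.1 - F j z.2| ^ p + (L:ℝ) ^ p * e z.1 + (L:ℝ) ^ p * e z.2) ∂(γ.prod γ)
          = ∫ z : Eu k × Eu k, (|F j z.1 - F j z.2| ^ p + (L:ℝ) ^ p * e z.1) ∂(γ.prod γ) + ∫ z : Eu k × Eu k, (L:ℝ) ^ p * e z.2 ∂(γ.prod γ) :=
        integral_add (hdint.add (he1.const_mul _)) (he2.const_mul _)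
      have q2 : ∫ z : Eu k × Eu k, (|F j z.1 - F j z.2| ^ p + (L:ℝ) ^ p * e z.1) ∂(γ.prod γ)
          = ∫ z : Eu k × Eu k, |F j z.1 - F j z.2| ^ p ∂(γ.prod γ) + ∫ z : Eu k × Eu k, (L:ℝ) ^ p * e z.1 ∂(γ.prod γ) :=
        integral_add hdint (he1.const_mul _)
      rw [q1, q2, integral_const_mul, integral_const_mul]
    rw [integral_const_mul, hi1]
    apply mul_le_mul_of_nonneg_left _ (by positivity)
    have hc := gauss_conc k (F j) L (hF j) p hp1
    have hLp : 0 ≤ (L:ℝ) ^ p := by positivity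
    have b1 := mul_le_mul_of_nonneg_left heI1 hLp
    have b2 := mul_le_mul_of_nonneg_left heI2 hLp
    calc _ ≤ (Real.pi / 2) ^ p * ((L : ℝ) ^ p * mom p) + (L:ℝ) ^ p * Er p + (L:ℝ) ^ p * Er p := add_le_add (add_le_add hc b1) b2
      _ = _ := by ring
  -- the average distance between rounded points
  set A : ℝ := ∫ z : Eu k × Eu k, ‖rv k z.1 - rv k z.2‖ ^ p ∂(γ.prod γ) with hA
  have hrmeas : Measurable fun z : Eu k × Eu k => ‖rv k z.1 - rv k z.2‖ ^ p :=
    (((rv_meas k).comp measurable_fst).sub ((rv_meas k).comp measurable_snd)).norm.pow_const p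
  have hdist : Integrable (fun z : Eu k × Eu k => ‖z.1 - z.2‖ ^ p) (γ.prod γ) := by
    have hb : Integrable (fun z : Eu k × Eu k => (2:ℝ) ^ p * ‖z‖ ^ p) (γ.prod γ) := hgi.const_mul _
    have hcc : Continuous fun z : Eu k × Eu k => ‖z.1 - z.2‖ ^ p :=
      (continuous_fst.sub continuous_snd).norm.rpow_const (fun _ => Or.inr hp0.le)
    refine hb.mono' hcc.aestronglyMeasurable (Eventually.of_forall fun z => ?_)
    rw [Real.norm_eq_abs, abs_of_nonneg (Real.rpow_nonneg (norm_nonneg _) _), ← Real.mul_rpow (by norm_num) (norm_nonneg _)]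
    apply Real.rpow_le_rpow (norm_nonneg _) _ hp0.le
    have := norm_sub_le z.1 z.2
    linarith [norm_fst_le z, norm_snd_le z]
  have hrint : Integrable (fun z : Eu k × Eu k => ‖rv k z.1 - rv k z.2‖ ^ p) (γ.prod γ) := by
    have hb : Integrable (fun z : Eu k × Eu k => 3 ^ (p - 1) * (‖z.1 - z.2‖ ^ p + e z.1 + e z.2)) (γ.prod γ) :=
      ((hdist.add he1).add he2).const_mul _
    refine hb.mono' hrmeas.aestronglyMeasurable (Eventually.of_forall fun z => ?_)
    rw [Real.norm_eq_abs, abs_of_nonneg (Real.rpow_nonneg (norm_nonneg _) _)]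
    have t1 : ‖rv k z.1 - rv k z.2‖ ≤ ‖z.1 - z.2‖ + ‖z.1 - rv k z.1‖ + ‖z.2 - rv k z.2‖ := by
      have : rv k z.1 - rv k z.2 = (z.1 - z.2) - (z.1 - rv k z.1) + (z.2 - rv k z.2) := by abel
      rw [this]
      exact (norm_add_le _ _).trans (add_le_add (norm_sub_le _ _) le_rfl)
    exact (Real.rpow_le_rpow (norm_nonneg _) t1 hp0.le).trans (three_rpow p hp1 _ _ _ (norm_nonneg _) (norm_nonneg _) (norm_nonneg _))
  have hAge : (k:ℝ) ^ (p / 2) ≤ 3 ^ (p - 1) * (A + 2 * Er p) := by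
    refine (diff_p_ge k p hp).trans ?_
    have hb : Integrable (fun z : Eu k × Eu k => 3 ^ (p - 1) * (‖rv k z.1 - rv k z.2‖ ^ p + e z.1 + e z.2)) (γ.prod γ) :=
      ((hrint.add he1).add he2).const_mul _
    have hpt : ∀ z : Eu k × Eu k, ‖z.1 - z.2‖ ^ p ≤ 3 ^ (p - 1) * (‖rv k z.1 - rv k z.2‖ ^ p + e z.1 + e z.2) := by
      intro z
      have t1 : ‖z.1 - z.2‖ ≤ ‖rv k z.1 - rv k z.2‖ + ‖z.1 - rv k z.1‖ + ‖z.2 - rv k z.2‖ := by
        have : z.1 - z.2 = (rv k z.1 - rv k z.2) + (z.1 - rv k z.1) - (z.2 - rv k z.2) := by abel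
        rw [this]
        exact (norm_sub_le _ _).trans (add_le_add (norm_add_le _ _) le_rfl)
      exact (Real.rpow_le_rpow (norm_nonneg _) t1 hp0.le).trans (three_rpow p hp1 _ _ _ (norm_nonneg _) (norm_nonneg _) (norm_nonneg _))
    refine (integral_mono hdist hb hpt).trans ?_
    have q1 : ∫ z : Eu k × Eu k, (‖rv k z.1 - rv k z.2‖ ^ p + e z.1 + e z.2) ∂(γ.prod γ)
        = ∫ z : Eu k × Eu k, (‖rv k z.1 - rv k z.2‖ ^ p + e z.1) ∂(γ.prod γ) + ∫ z : Eu k × Eu k, e z.2 ∂(γ.prod γ) :=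
      integral_add (hrint.add he1) he2
    have q2 : ∫ z : Eu k × Eu k, (‖rv k z.1 - rv k z.2‖ ^ p + e z.1) ∂(γ.prod γ)
        = A + ∫ z : Eu k × Eu k, e z.1 ∂(γ.prod γ) := integral_add hrint he1
    rw [integral_const_mul, q1, q2]
    apply mul_le_mul_of_nonneg_left _ (by positivity)
    linarith
  have hAle : A ≤ d * (3 ^ (p - 1) * (D ^ p * ((Real.pi / 2) ^ p * mom p + 2 * Er p))) := by
    have hpt : ∀ z : Eu k × Eu k, a ^ p * ‖rv k z.1 - rv k z.2‖ ^ p ≤ ∑ j, |F j (rv k z.1) - F j (rv k z.2)| ^ p := by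
      intro z
      have t1 := h1 (rv k z.1) (rv_mem k z.1) (rv k z.2) (rv_mem k z.2)
      have t2 := Real.rpow_le_rpow (by positivity) t1 hp0.le
      rw [Real.mul_rpow ha.le (norm_nonneg _), ← Real.rpow_mul (Finset.sum_nonneg fun j _ => Real.rpow_nonneg (abs_nonneg _) _),
        one_div_mul_cancel hp0.ne', Real.rpow_one] at t2
      refine t2.trans (le_of_eq ?_)
      apply Finset.sum_congr rfl
      intro j _
      rw [hE j _ (rv_mem k z.1), hE j _ (rv_mem k z.2)]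
    have t3 := integral_mono (hrint.const_mul (a ^ p)) (integrable_finsetSum _ fun j _ => (hB j).1) hpt
    rw [integral_const_mul, integral_finsetSum _ fun j _ => (hB j).1] at t3
    have t4 : ∑ j : Fin d, ∫ z : Eu k × Eu k, |F j (rv k z.1) - F j (rv k z.2)| ^ p ∂(γ.prod γ) ≤
        d * (3 ^ (p - 1) * ((L : ℝ) ^ p * ((Real.pi / 2) ^ p * mom p + 2 * Er p))) := by
      refine (Finset.sum_le_sum fun j _ => (hB j).2).trans (le_of_eq ?_)
      rw [Finset.sum_const, Finset.card_univ, Fintype.card_fin, nsmul_eq_mul]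
    have t5 : (L : ℝ) ^ p = D ^ p * a ^ p := by rw [hLc, Real.mul_rpow hD.le ha.le]
    rw [t5] at t4
    have hap : 0 < a ^ p := Real.rpow_pos_of_pos ha p
    have t6 : a ^ p * A ≤ a ^ p * (d * (3 ^ (p - 1) * (D ^ p * ((Real.pi / 2) ^ p * mom p + 2 * Er p)))) := by
      refine (t3.trans t4).trans (le_of_eq ?_)
      ring
    exact le_of_mul_le_mul_left t6 hap
  refine hAge.trans ?_
  apply mul_le_mul_of_nonneg_left _ (by positivity)
  linarith

end Vale.Agent.P249
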